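import Vale.Agent.P021Pi.Defs
import Vale.Agent.P021Pi.Analytic.Laplace
import Vale.Agent.P021Pi.Analytic.Value
import Vale.Agent.P021Pi.Analytic.Concave

/-!
# P021: the analytic part of the bound on the irrationality exponent of pi
-/

namespace Vale.Agent.P021Pi

open Complex Filter Topology Set Analytic

namespace Analytic

theorem good_of_conc {c e : ℂ} (hd : dlog c = 0)
    (hsep : ∀ i, pp c e i = 1 ∧ 0 < mult i ∨ (pp c e i).im ≠ 0)
    (hlast : ∃ i, pp c e i = 1 ∧ 0 < mult i)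
    (hconc : ∀ s ∈ Ico (0 : ℝ) 1, curvRe (pp c e) mult s ≤ -2 * 1) :
    Good (pp c e) mult 1 := by
  refine ⟨hsep, ?_, hlast, one_pos, hconc⟩
  have h : ∀ i, (mult i : ℂ) / pp c e i = -(e - c) * ((mult i : ℂ) / (c - pts i)) := fun i => by
    rw [pp, div_div_eq_mul_div, ← neg_sub c (pts i), div_neg]
    ring
  simp only [h, ← Finset.mul_sum]
  refine mul_eq_zero_of_right _ ?_
  rw [Fin.sum_univ_seven, ← hd, dlog]
  simp only [mult, pts, Matrix.cons_val, Matrix.cons_val_zero, Matrix.cons_val_one, sub_zero,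
    sub_neg_eq_add]
  push_cast
  ring

theorem sep_of_near {x : ℂ} {u v : ℝ} (h : ‖x - ⟨u, v⟩‖ ≤ 1e-5) (hv : 1e-5 < |v|) : x.im ≠ 0 := by
  intro h0
  have := (abs_im_le_norm _).trans h
  rw [sub_im, h0, zero_sub, abs_neg] at this
  exact absurd this (not_le.2 hv)

theorem good_two {c : ℂ} (hc : ‖c - c0‖ ≤ 2e-7) (hd : dlog c = 0) :
    Good (pp c 2) mult 1 := by
  obtain ⟨b0, b1, b2, b3, b4, b5, b6⟩ := boxes_two hc
  have h3 : pp c 2 3 = 1 ∧ 0 < mult 3 := ⟨b3, by decide⟩
  refine good_of_conc hd (fun i => ?_) ⟨3, h3⟩ fun s hs => conc_two hc hs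
  fin_cases i
  · exact Or.inr (sep_of_near b0 (by norm_num [abs_of_neg]))
  · exact Or.inr (sep_of_near b1 (by norm_num [abs_of_neg]))
  · exact Or.inr (sep_of_near b2 (by norm_num [abs_of_neg]))
  · exact Or.inl h3
  · exact Or.inr (sep_of_near b4 (by norm_num [abs_of_neg]))
  · exact Or.inr (sep_of_near b5 (by norm_num [abs_of_neg]))
  · exact Or.inr (sep_of_near b6 (by norm_num [abs_of_neg]))

theorem good_one_add_I {c : ℂ} (hc : ‖c - c0‖ ≤ 2e-7) (hd : dlog c = 0) :
    Good (pp c (1 + I)) mult 1 := by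
  obtain ⟨b0, b1, b2, b3, b4, b5, b6⟩ := boxes_one_add_I hc
  have h0 : pp c (1 + I) 0 = 1 ∧ 0 < mult 0 := ⟨b0, by decide⟩
  refine good_of_conc hd (fun i => ?_) ⟨0, h0⟩ fun s hs => conc_one_add_I hc hs
  fin_cases i
  · exact Or.inl h0
  · exact Or.inr (sep_of_near b1 (by norm_num [abs_of_pos]))
  · exact Or.inr (sep_of_near b2 (by norm_num [abs_of_pos]))
  · exact Or.inr (sep_of_near b3 (by norm_num [abs_of_pos]))
  · exact Or.inr (sep_of_near b4 (by norm_num [abs_of_pos]))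
  · exact Or.inr (sep_of_near b5 (by norm_num [abs_of_pos]))
  · exact Or.inr (sep_of_near b6 (by norm_num [abs_of_pos]))

theorem quot_pow_identity (a b x y v f g a' b' x' y' v' f' g' : ℂ) :
    (a / a') ^ 56 * (b / b') ^ 56 * (x / x') ^ 92 * (y / y') ^ 92 * ((v / v') ^ 74)⁻¹ *
      ((f / f') ^ 74)⁻¹ * ((g / g') ^ 74)⁻¹ =
    ((a * b) ^ 56 * (x * y) ^ 92 / (v ^ 74 * (f * g) ^ 74)) /
      ((a' * b') ^ 56 * (x' * y') ^ 92 / (v' ^ 74 * (f' * g') ^ 74)) := by
  simp only [div_eq_mul_inv, mul_inv, mul_pow, inv_pow, inv_inv]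
  ring

theorem pow_split_identity (a b z x d : ℂ) (n : ℕ) :
    a ^ (56 * n) * b ^ (92 * n) / (z ^ (74 * n + 1) * x ^ (74 * n)) * d =
      (a ^ 56 * b ^ 92 / (z ^ 74 * x ^ 74)) ^ n * (d / z) := by
  simp only [pow_mul, pow_succ z (74 * n), div_pow, mul_pow]
  simp only [div_eq_mul_inv, mul_inv]
  ring

theorem nrm_eq {c e : ℂ} (he : e - c ≠ 0) (s : ℝ) :
    nrm (pp c e) mult s = phi (c + s * (e - c)) / phi c := by
  have hr : ∀ i, ((s : ℂ) - pp c e i) / -(pp c e i) =
      (c + s * (e - c) - pts i) / (c - pts i) := fun i => by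
    rw [pp]
    field_simp
    rw [← neg_sub c (pts i), div_neg, ← neg_div]
    ring_nf
  simp only [nrm, hr]
  generalize c + (s : ℂ) * (e - c) = z
  rw [Fin.prod_univ_seven]
  simp only [mult, pts, Matrix.cons_val, Matrix.cons_val_zero, Matrix.cons_val_one, sub_zero,
    sub_neg_eq_add, Int.reduceNeg, zpow_neg, zpow_ofNat]
  have hq : ∀ w : ℂ, w ^ 2 - 2 * w + 2 = (w - (1 + I)) * (w - (1 - I)) := fun w => by
    linear_combination I_sq
  have hs : ∀ w : ℂ, w ^ 2 - 2 = (w - (Real.sqrt 2 : ℂ)) * (w + (Real.sqrt 2 : ℂ)) := fun w => by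
    have : (Real.sqrt 2 : ℂ) ^ 2 = 2 := by
      exact_mod_cast congrArg ofReal (Real.sq_sqrt (show (0 : ℝ) ≤ 2 by norm_num))
    linear_combination this
  simp only [phi, hq, hs]
  exact quot_pow_identity _ _ _ _ _ _ _ _ _ _ _ _ _ _

theorem seg_swap (A B H : ℕ) (u v : ℂ) : seg A B H u v = -seg A B H v u := by
  unfold seg
  have h := intervalIntegral.integral_comp_sub_left
    (fun t : ℝ => integrand A B H (u + t * (v - u)) * (v - u)) (1 : ℝ) (a := 0) (b := 1)
  rw [sub_self, sub_zero] at h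
  rw [← h, ← intervalIntegral.integral_neg]
  refine intervalIntegral.integral_congr fun t _ => ?_
  simp only [ofReal_sub, ofReal_one]
  rw [show u + (1 - (t : ℂ)) * (v - u) = v + t * (u - v) by ring]
  ring

theorem seg_eq {c e : ℂ} (he : e - c ≠ 0) (hw : phi c ≠ 0) (n : ℕ) :
    seg (56 * n) (92 * n) (74 * n) c e =
      phi c ^ n * ∫ s in (0 : ℝ)..1, nrm (pp c e) mult s ^ n * ((e - c) / (c + s * (e - c))) := by
  rw [seg, ← intervalIntegral.integral_const_mul]
  refine intervalIntegral.integral_congr fun s _ => ?_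
  rw [← mul_assoc, ← mul_pow, nrm_eq he, mul_div_cancel₀ _ hw]
  exact pow_split_identity _ _ _ _ _ n

theorem re_cpow_half_nonneg {x : ℂ} (hx : x ≠ 0) : 0 ≤ (x ^ (1 / 2 : ℂ)).re := by
  rw [cpow_def_of_ne_zero hx, exp_re]
  refine mul_nonneg (Real.exp_pos _).le (Real.cos_nonneg_of_mem_Icc ?_)
  have h1 := neg_pi_lt_arg x
  have h2 := arg_le_pi x
  constructor <;> (simp [mul_im, log_im]; linarith)

theorem re_mul_conj_sqrt_pos {x y : ℂ} (hx : 0 < x.re) (hy : 0 < y.re) :
    0 < (x ^ (1 / 2 : ℂ) * (starRingEnd ℂ) (y ^ (1 / 2 : ℂ))).re := by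
  have key : ∀ z : ℂ, 0 < z.re →
      0 ≤ (z ^ (1 / 2 : ℂ)).re ∧ |(z ^ (1 / 2 : ℂ)).im| < (z ^ (1 / 2 : ℂ)).re := by
    intro z hz
    have hne : z ≠ 0 := fun h => by rw [h, zero_re] at hz; exact hz.false
    have h0 := re_cpow_half_nonneg hne
    refine ⟨h0, abs_lt_of_sq_lt_sq ?_ h0⟩
    have h2 : (z ^ (1 / 2 : ℂ)) ^ 2 = z := by
      have := cpow_nat_inv_pow z (n := 2) two_ne_zero
      simpa only [one_div, Nat.cast_ofNat] using this
    have h3 := congrArg Complex.re h2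
    rw [sq, mul_re] at h3
    nlinarith
  obtain ⟨a0, a1⟩ := key x hx
  obtain ⟨b0, b1⟩ := key y hy
  rw [mul_re, conj_re, conj_im]
  rw [abs_lt] at a1 b1
  nlinarith [mul_pos (sub_pos.2 a1.2) (sub_pos.2 b1.2),
    mul_pos (show 0 < (x ^ (1 / 2 : ℂ)).re + (x ^ (1 / 2 : ℂ)).im by linarith)
      (show 0 < (y ^ (1 / 2 : ℂ)).re + (y ^ (1 / 2 : ℂ)).im by linarith)]

/-- A lower bound for two consecutive imaginary parts. -/
theorem im_pair (w x y : ℂ) :
    |w.im| * ‖x‖ ≤ |y.im| + ‖y - w * x‖ + 2 * ‖w‖ * |x.im| := by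
  have h1 : w.im * x.re = y.im - (y - w * x).im - w.re * x.im := by
    simp [mul_im]
  have h2 : |w.im * x.re| ≤ |y.im| + |(y - w * x).im| + |w.re * x.im| := by
    rw [h1]
    exact (abs_sub _ _).trans (add_le_add (abs_sub _ _) le_rfl)
  rw [abs_mul, abs_mul] at h2
  have h3 := mul_le_mul_of_nonneg_left (norm_le_abs_re_add_abs_im x) (abs_nonneg w.im)
  have h4 := mul_le_mul_of_nonneg_right (abs_im_le_norm w) (abs_nonneg x.im)
  have h5 := mul_le_mul_of_nonneg_right (abs_re_le_norm w) (abs_nonneg x.im)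
  have h6 := abs_im_le_norm (y - w * x)
  rw [mul_add] at h3
  linarith

end Analytic

/-- The analytic ingredient of the bound `μ(π) ≤ 6.0375`. -/
theorem analyticStatement : AnalyticStatement 56 92 74 (-120.556) (-120.555) := by
  obtain ⟨c, hc, hd⟩ := exists_saddle
  obtain ⟨hlo, hhi, him⟩ := phi_saddle hc
  have hr := (abs_re_le_norm (c - c0)).trans hc
  have hi := (abs_im_le_norm (c - c0)).trans hc
  simp only [c0, sub_re, sub_im, abs_le] at hr hi
  norm_num at hr hi
  have hcim : 0 < c.im := by linarith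
  refine ⟨c, hcim, ?_⟩
  set w := phi c with hw
  have hw0 : w ≠ 0 := fun h => him (by rw [h, zero_im])
  have hn0 : 0 < ‖w‖ := norm_pos_iff.2 hw0
  have g0 := good_two hc hd
  have g1 := good_one_add_I hc hd
  have d0 : (2 : ℂ) - c ≠ 0 := fun h => by
    have := congrArg Complex.im h
    simp at this
    linarith
  have d1 : (1 + I : ℂ) - c ≠ 0 := fun h => by
    have := congrArg Complex.re h
    simp at this
    linarith
  have hψ : ∀ e : ℂ, 1 ≤ e.re →
      ContinuousOn (fun s : ℝ => (e - c) / (c + s * (e - c))) (Icc 0 1) := by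
    intro e he
    refine ContinuousOn.div (by fun_prop) (by fun_prop) fun s hs h => ?_
    have := congrArg Complex.re h
    simp at this
    nlinarith [mul_nonneg hs.1 (sub_nonneg.2 he), mul_nonneg (sub_nonneg.2 hs.2)
      (show 0 ≤ c.re - 1 by linarith)]
  set J : ℕ → ℂ := fun n =>
    (∫ s in (0 : ℝ)..1, nrm (pp c (1 + I)) mult s ^ n * ((1 + I - c) / (c + s * (1 + I - c)))) -
    ∫ s in (0 : ℝ)..1, nrm (pp c 2) mult s ^ n * ((2 - c) / (c + s * (2 - c))) with hJ
  have hlam : ∀ n, lam (56 * n) (92 * n) (74 * n) c = w ^ n * J n := fun n => by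
    rw [lam, seg_swap _ _ _ 2 c, seg_eq d1 hw0, seg_eq d0 hw0, hJ, mul_sub]
    ring
  obtain ⟨σ0, hσ0⟩ : ∃ σ : ℂ,
      σ = ((Real.pi : ℂ) / (-(rate (pp c 2) mult 0) / 2)) ^ (1 / 2 : ℂ) := ⟨_, rfl⟩
  obtain ⟨σ1, hσ1⟩ : ∃ σ : ℂ,
      σ = ((Real.pi : ℂ) / (-(rate (pp c (1 + I)) mult 0) / 2)) ^ (1 / 2 : ℂ) := ⟨_, rfl⟩
  obtain ⟨L, hL⟩ : ∃ L : ℂ,
      L = (1 + I - c) / c * (σ1 / 2) - (2 - c) / c * (σ0 / 2) := ⟨_, rfl⟩
  have hlim : Tendsto (fun n : ℕ => (Real.sqrt n : ℂ) * J n) atTop (𝓝 L) := by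
    have t1 := g1.tendsto_integral (hψ (1 + I) (by simp))
    have t0 := g0.tendsto_integral (hψ 2 (by simp))
    simp only [ofReal_zero, zero_mul, add_zero] at t1 t0
    rw [← hσ1] at t1
    rw [← hσ0] at t0
    rw [hL]
    exact (t1.sub t0).congr fun n => (mul_sub _ _ _).symm
  have hL0 : L ≠ 0 := by
    intro h
    have hpos : ∀ z : ℂ, z.re < 0 → 0 < ((Real.pi : ℂ) / (-z / 2)).re := fun z hz => by
      rw [div_re, ofReal_re, ofReal_im, zero_mul, zero_div, add_zero, neg_div, neg_re,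
        div_ofNat_re]
      refine div_pos (mul_pos Real.pi_pos (by linarith)) (normSq_pos.2 fun h0 => ?_)
      rw [neg_eq_zero, div_eq_zero_iff] at h0
      rcases h0 with h0 | h0
      · rw [h0, zero_re] at hz
        exact hz.false
      · norm_num at h0
    have key := re_mul_conj_sqrt_pos (hpos _ g1.re_rate_zero_neg) (hpos _ g0.re_rate_zero_neg)
    rw [← hσ0, ← hσ1] at key
    have hc0 : c ≠ 0 := fun h0 => by rw [h0, zero_im] at hcim; exact hcim.false
    have heq : (1 + I - c) * σ1 = (2 - c) * σ0 := by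
      rw [hL] at h
      field_simp at h
      linear_combination h
    have h2 : (starRingEnd ℂ) (1 + I - c) * (1 + I - c) * (σ1 * (starRingEnd ℂ) σ0) =
        (starRingEnd ℂ) (1 + I - c) * (2 - c) * (σ0 * (starRingEnd ℂ) σ0) := by
      linear_combination ((starRingEnd ℂ) (1 + I - c) * (starRingEnd ℂ) σ0) * heq
    rw [mul_comm ((starRingEnd ℂ) (1 + I - c)) (1 + I - c), mul_conj, mul_conj] at h2
    have h3 := congrArg Complex.re h2
    rw [re_ofReal_mul, mul_comm _ (ofReal _), re_ofReal_mul] at h3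
    have hneg : ((starRingEnd ℂ) (1 + I - c) * (2 - c)).re < 0 := by
      simp [mul_re]
      nlinarith
    have := mul_pos (normSq_pos.2 d1) key
    have := mul_nonpos_of_nonneg_of_nonpos (normSq_nonneg σ0) hneg.le
    linarith
  constructor
  · obtain ⟨M0, hM0⟩ := g0.norm_integral_le (hψ 2 (by simp))
    obtain ⟨M1, hM1⟩ := g1.norm_integral_le (hψ (1 + I) (by simp))
    have hρ : ‖w‖ / Real.exp (-120.555) < 1 := by rw [div_lt_one (Real.exp_pos _)]; exact hhi
    have ht := (tendsto_pow_atTop_nhds_zero_of_lt_one (by positivity) hρ).const_mul (M1 + M0)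
    rw [mul_zero] at ht
    filter_upwards [ht.eventually (eventually_le_nhds one_pos)] with n hn
    rw [div_pow, ← mul_div_assoc, div_le_one (by positivity), ← Real.exp_nat_mul, mul_comm (n : ℝ)]
      at hn
    refine (abs_im_le_norm _).trans (le_trans ?_ hn)
    rw [hlam, norm_mul, norm_pow, mul_comm (M1 + M0)]
    exact mul_le_mul_of_nonneg_left ((norm_sub_le _ _).trans (add_le_add (hM1 n) (hM0 n)))
      (by positivity)
  · have hLn : 0 < ‖L‖ := norm_pos_iff.2 hL0
    have hwim : 0 < |w.im| := abs_pos.2 him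
    have hr1 : Tendsto (fun n : ℕ => Real.sqrt n / Real.sqrt (n + 1 : ℕ)) atTop (𝓝 1) := by
      have h1 : Tendsto (fun n : ℕ => Real.sqrt ((n : ℝ) / (n + 1))) atTop (𝓝 (Real.sqrt 1)) :=
        (Real.continuous_sqrt.tendsto 1).comp (tendsto_natCast_div_add_atTop 1)
      rw [Real.sqrt_one] at h1
      refine h1.congr fun n => ?_
      rw [Real.sqrt_div (Nat.cast_nonneg n)]
      push_cast
      rfl
    have hdiff : Tendsto (fun n : ℕ => (Real.sqrt n : ℂ) * (J (n + 1) - J n)) atTop (𝓝 0) := by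
      have h := (((continuous_ofReal.tendsto 1).comp hr1).mul
        (hlim.comp (tendsto_add_atTop_nat 1))).sub hlim
      rw [ofReal_one, one_mul, sub_self] at h
      refine h.congr fun n => ?_
      simp only [Function.comp_apply, ofReal_div]
      have : (Real.sqrt (n + 1 : ℕ) : ℂ) ≠ 0 := by
        exact_mod_cast (Real.sqrt_pos.2 (show (0 : ℝ) < (n + 1 : ℕ) by positivity)).ne'
      field_simp
    have hρ : Real.exp (-120.556) / ‖w‖ < 1 := by rw [div_lt_one hn0]; exact hlo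
    have hfast := tendsto_self_mul_const_pow_of_lt_one
      (show 0 ≤ Real.exp (-120.556) / ‖w‖ by positivity) hρ
    have hκ : 0 < |w.im| * ‖L‖ / 4 / (1 + 2 * ‖w‖) := by positivity
    filter_upwards [hlim.norm.eventually (eventually_ge_nhds (half_lt_self hLn)),
      hdiff.norm.eventually (eventually_le_nhds (show ‖(0 : ℂ)‖ < |w.im| * ‖L‖ / (4 * ‖w‖) by
        rw [norm_zero]; positivity)),
      hfast.eventually (eventually_lt_nhds hκ), eventually_ge_atTop 1] with n e1 e2 e3 hn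
    by_contra hcon
    simp only [not_or, not_le] at hcon
    obtain ⟨c1, c2⟩ := hcon
    have hp := im_pair w (lam (56 * n) (92 * n) (74 * n) c)
      (lam (56 * (n + 1)) (92 * (n + 1)) (74 * (n + 1)) c)
    have e4 : lam (56 * (n + 1)) (92 * (n + 1)) (74 * (n + 1)) c -
        w * lam (56 * n) (92 * n) (74 * n) c = w ^ (n + 1) * (J (n + 1) - J n) := by
      rw [hlam, hlam, pow_succ]
      ring
    rw [e4, norm_mul, norm_pow, pow_succ, hlam n, norm_mul, norm_pow] at hp
    rw [norm_mul, norm_real, Real.norm_of_nonneg (Real.sqrt_nonneg _)] at e1 e2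
    have hs : Real.sqrt n ≤ n := Real.sqrt_le_left (Nat.cast_nonneg n) |>.2 (by
      have : (1 : ℝ) ≤ n := by exact_mod_cast hn
      nlinarith)
    have hsp : 0 ≤ Real.sqrt n := Real.sqrt_nonneg _
    have hE : Real.exp (-120.556 * n) = Real.exp (-120.556) ^ n := by
      rw [← Real.exp_nat_mul]; ring_nf
    rw [← hlam n] at hp
    rw [hE] at c1 c2
    rw [div_pow, ← mul_div_assoc, div_lt_div_iff₀ (by positivity) (by positivity)] at e3
    set r := ‖w‖ ^ n
    set E := Real.exp (-120.556) ^ n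
    have hr0 : 0 < r := by positivity
    have a1 := mul_le_mul_of_nonneg_left e1 (mul_nonneg hwim.le hr0.le)
    have a2 := mul_le_mul_of_nonneg_left e2 (mul_nonneg hn0.le hr0.le)
    have a3 : ‖w‖ * r * (|w.im| * ‖L‖ / (4 * ‖w‖)) = r * |w.im| * ‖L‖ / 4 := by field_simp
    have a4 := mul_le_mul_of_nonneg_left hp hsp
    have a5 := mul_le_mul_of_nonneg_left c2.le hsp
    have a6 := mul_le_mul_of_nonneg_left c1.le (mul_nonneg (mul_nonneg hsp zero_le_two) hn0.le)
    have a7 : Real.sqrt n * (E * (1 + 2 * ‖w‖)) ≤ n * (E * (1 + 2 * ‖w‖)) :=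
      mul_le_mul_of_nonneg_right hs (by positivity)
    rw [div_mul_eq_mul_div] at e3
    linarith

end Vale.Agent.P021Pi
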