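import Vale.Agent.P021Pi.SavedPrime

/-!
# The arithmetic part, given the two-adic bound (P021)
-/

namespace Vale.Agent.P021Pi

open Polynomial

lemma arg_one_add_I : Complex.arg (1 + Complex.I) = Real.pi / 4 := by
  have h : (1 : ℂ) + Complex.I = (Real.sqrt 2 : ℝ) * (Complex.cos ((Real.pi / 4 : ℝ) : ℂ)
      + Complex.sin ((Real.pi / 4 : ℝ) : ℂ) * Complex.I) := by
    rw [← Complex.ofReal_cos, ← Complex.ofReal_sin, Real.cos_pi_div_four, Real.sin_pi_div_four]
    have := rtwo_sq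
    rw [rtwo] at this
    push_cast
    linear_combination (-(1 + Complex.I) / 2) * this
  rw [h, Complex.arg_mul_cos_add_sin_mul_I (by positivity)
    ⟨by linarith [Real.pi_pos], by linarith [Real.pi_pos]⟩]

lemma integrand_eq (A B H : ℕ) (z : ℂ) :
    integrand A B H z = aeval z ((X ^ 2 - C 2 * X + C 2) ^ A * ((X - C 1) * (X - C 2)) ^ B : ℤ[X])
      / (z ^ (H + 1) * (z ^ 2 - 2) ^ H) := by
  simp [integrand, map_ofNat]

/-- Decomposition of the integrand with integral values away from `2`. -/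
lemma integrand_prim (A B H q : ℕ) (hAB : A + B = 2 * H) (hH : Even H) (hodd : Odd q) :
    ∃ ρ : ℤ, ∃ G : ℂ → ℂ, (∀ z ∈ dom, HasDerivAt G (integrand A B H z - ρ / z) z) ∧
      ∀ p ∈ ({1 + Complex.I, 1 - Complex.I} : Set ℂ), (Nat.lcmUpto H : ℂ) * G p ∈ locInt q := by
  set N : ℤ[X] := (X ^ 2 - C 2 * X + C 2) ^ A * ((X - C 1) * (X - C 2)) ^ B with hN
  have hdeg : N.natDegree + 1 ≤ H + (H + 1 + 2 * H) := by
    have e1 : (X ^ 2 - C 2 * X + C 2 : ℤ[X]).natDegree ≤ 2 := by compute_degree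
    have e2 : ((X - C 1) * (X - C 2) : ℤ[X]).natDegree ≤ 2 := by compute_degree
    have := natDegree_mul_le.trans (Nat.add_le_add (natDegree_pow_le_of_le A e1)
      (natDegree_pow_le_of_le B e2))
    rw [← hN] at this
    omega
  obtain ⟨σ, G, a, b, c, hσ, hG, hGp⟩ := prim_rat (O := locInt q) (Lc := Nat.lcmUpto H)
    (rtwo_inv_mem hodd).1 (rtwo_inv_mem hodd).2 (locInt_rtwo q) (goodPts_pm hodd) H
    (fun j h1 h2 => Finset.dvd_lcm (f := id) (Finset.mem_Icc.mpr ⟨h1, h2⟩))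
    N (H + 1) H le_rfl (Nat.le_succ H) hdeg (by omega)
  have hG' : ∀ z ∈ dom, HasDerivAt G (integrand A B H z - logPart a b c z) z := fun z hz => by
    rw [integrand_eq]
    exact hG z hz
  obtain ⟨hb, hc⟩ := residues_pm A B H hAB hH hG'
  refine ⟨σ, G, fun z hz => (hG' z hz).congr_deriv ?_, hGp⟩
  rw [← hσ, hb, hc]
  simp [logPart]

lemma residue_unique {f G K : ℂ → ℂ} {ρ ρ' : ℂ}
    (hG : ∀ z ∈ dom, HasDerivAt G (f z - ρ / z) z)
    (hK : ∀ z ∈ dom, HasDerivAt K (f z - ρ' / z) z) : ρ = ρ' := by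
  obtain ⟨h, -, -⟩ := logPart_unique (a := ρ' - ρ) (b := 0) (c := 0) (G := fun z => G z - K z)
    fun z hz => ((hG z hz).sub (hK z hz)).congr_deriv (by unfold logPart; ring)
  exact (sub_eq_zero.mp h).symm

/-- The arithmetic statement, given the two-adic one. -/
theorem arithmetic_of (h2 : TwoAdicStatement) : ArithmeticStatement := by
  classical
  intro A B H hAB hH h811 s hs
  have hdvd : (∏ q ∈ s, q) ∣ Nat.lcmUpto H :=
    Finset.prod_primes_dvd _ (fun q hq => (hs q hq).1.prime) fun q hq =>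
      Finset.dvd_lcm (f := id) (Finset.mem_Icc.mpr ⟨(hs q hq).1.one_le, (hs q hq).2.2.1⟩)
  refine ⟨hdvd, fun c hc => ?_⟩
  obtain ⟨ρ, G₃, hG₃, -⟩ := integrand_prim A B H 3 hAB hH (by decide)
  obtain ⟨G, a, b, d, hrat, hG⟩ := ratP_rat
    ((X ^ 2 - C 2 * X + C 2) ^ A * ((X - C 1) * (X - C 2)) ^ B) (H + 1) H
  have hG' : ∀ z ∈ dom, HasDerivAt G (integrand A B H z - logPart a b d z) z := fun z hz => by
    rw [integrand_eq]; exact hG z hz
  obtain ⟨hb, hd⟩ := residues_pm A B H hAB hH hG'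
  have hG0 : ∀ z ∈ dom, HasDerivAt G (integrand A B H z - a / z) z := fun z hz =>
    (hG' z hz).congr_deriv (by simp [logPart, hb, hd])
  have haρ : a = ρ := residue_unique hG0 hG₃
  subst haρ
  obtain ⟨r, t, hrt⟩ := ratFn_value hrat
  have hconj : G (1 - Complex.I) = (r : ℂ) - (t : ℂ) * Complex.I := by
    have h := ratFn_conj hrat (z := 1 + Complex.I) (dom_of_im (by simp))
      (dom_of_im (by simp))
    rw [hrt] at h
    simpa [sub_eq_add_neg] using h
  have hdiff : G (1 + Complex.I) - G (1 - Complex.I) = 2 * (t : ℂ) * Complex.I := by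
    rw [hrt, hconj]; ring
  have h2re : (G 2).im = 0 := by
    have h := ratFn_conj hrat (z := 2) two_mem_dom (by rw [map_ofNat]; exact two_mem_dom)
    rw [map_ofNat] at h
    exact Complex.conj_eq_iff_im.mp h.symm
  set L : ℕ := 2 ^ 10 * (Nat.lcmUpto H / ∏ q ∈ s, q) with hL
  have hP0 : ((∏ q ∈ s, q : ℕ) : ℂ) ≠ 0 :=
    Nat.cast_ne_zero.mpr (Finset.prod_ne_zero_iff.mpr fun q hq => (hs q hq).1.ne_zero)
  have hLc : (L : ℂ) = 2 ^ 10 * ((Nat.lcmUpto H : ℂ) * ((∏ q ∈ s, q : ℕ) : ℂ)⁻¹) := by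
    rw [hL, Nat.cast_mul, Nat.cast_pow, Nat.cast_div hdvd hP0]
    simp [div_eq_mul_inv]
  have hint : ((L : ℚ) * t).den = 1 := by
    rw [Nat.eq_one_iff_not_exists_prime_dvd]
    intro q hq hqd
    suffices hmem : (((L : ℚ) * t : ℚ) : ℂ) ∈ locInt q by
      exact (Nat.Prime.coprime_iff_not_dvd hq).mp (locInt_rat hmem).symm hqd
    have hnat : ∀ n : ℕ, (n : ℂ) ∈ locInt q := fun n => natCast_mem _ n
    push_cast
    rcases hq.eq_two_or_odd' with rfl | hodd
    · have h5 := h2 A B H hAB h811 ρ G hrat hG0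
      have h6 : (2 : ℂ) ^ 6 * t ∈ locInt 2 := by
        have := (locInt 2).mul_mem h5 (locInt_I 2)
        rwa [show (2 : ℂ) ^ 5 * (G (1 - Complex.I) - G (1 + Complex.I)) * Complex.I
          = 2 ^ 6 * t by
            rw [← neg_sub, hdiff]; linear_combination (-(2 : ℂ) ^ 6 * t) * Complex.I_sq] at this
      rw [show (L : ℂ) * t
        = ((2 ^ 4 * (Nat.lcmUpto H / ∏ q ∈ s, q) : ℕ) : ℂ) * (2 ^ 6 * t) by
          rw [hL]; push_cast; ring]
      exact (locInt 2).mul_mem (hnat _) h6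
    · have hgen : (2 * (t : ℂ) * Complex.I) * (-Complex.I * 2⁻¹) = t := by
        linear_combination (-(t : ℂ)) * Complex.I_sq
      by_cases hqs : q ∈ s
      · have h := saved_integral A B H q hAB hH (hs q hqs) ρ G hG0
        rw [hdiff] at h
        refine (locInt q).mul_mem (hnat L) (hgen ▸ (locInt q).mul_mem h
          ((locInt q).mul_mem ((locInt q).neg_mem (locInt_I q)) (locInt_two_inv hodd)))
      · obtain ⟨ρ', K, hK, hKp⟩ := integrand_prim A B H q hAB hH hodd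
        have hρ : (ρ : ℂ) = ρ' := residue_unique hG0 hK
        have hd2 := primitive_diff hG0 (fun z hz => by rw [hρ]; exact hK z hz)
        rw [hdiff] at hd2
        have h := (locInt q).sub_mem (hKp (1 + Complex.I) (by simp)) (hKp (1 - Complex.I) (by simp))
        rw [← mul_sub, ← hd2] at h
        have hcop : (∏ p ∈ s, p).Coprime q := Nat.Coprime.prod_left fun p hp =>
          (Nat.coprime_primes (hs p hp).1 hq).mpr fun h => hqs (h ▸ hp)
        rw [show (L : ℂ) * t = ((2 ^ 10 : ℕ) : ℂ) * ((∏ p ∈ s, p : ℕ) : ℂ)⁻¹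
            * ((Nat.lcmUpto H : ℂ) * (2 * (t : ℂ) * Complex.I) * (-Complex.I * 2⁻¹)) by
          rw [hLc, mul_assoc (Nat.lcmUpto H : ℂ) _ (-Complex.I * 2⁻¹), hgen]; push_cast; ring]
        exact (locInt q).mul_mem ((locInt q).mul_mem (hnat _) (locInt_inv_natCast hcop))
          ((locInt q).mul_mem h
            ((locInt q).mul_mem ((locInt q).neg_mem (locInt_I q)) (locInt_two_inv hodd)))
  refine ⟨ρ, 4 * ((L : ℚ) * t).num, fun R hR => ?_, ?_⟩
  · simpa [← Real.norm_eq_abs] using residue_bound A B H hG0 hR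
  · have him : (lam A B H c).im = (t : ℝ) + ρ * (Real.pi / 4) := by
      rw [lam_eq A B H hG0 hc, hrt]
      simp [Complex.log_im, h2re, arg_one_add_I]
    have hnum : ((((L : ℚ) * t).num : ℤ) : ℝ) = (L : ℝ) * (t : ℝ) := by
      have h := Rat.coe_int_num_of_den_eq_one hint
      have h' := congrArg (fun x : ℚ => (x : ℝ)) h
      push_cast at h'
      exact h'
    rw [him]
    push_cast [hnum]
    ring

end Vale.Agent.P021Pi
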