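import Mathlib

/-!
# Numerical bounds for logarithms (P021)
-/

namespace Vale.Agent.P021Pi

open Finset

/-- Two-sided bound for `log y` with `y` near `1`, by the Taylor series. -/
lemma log_series (y : ℝ) (m : ℕ) (hy : |1 - y| < 1) :
    -(∑ i ∈ range m, (1 - y) ^ (i + 1) / (i + 1)) - |1 - y| ^ (m + 1) / (1 - |1 - y|)
        ≤ Real.log y ∧
      Real.log y ≤ -(∑ i ∈ range m, (1 - y) ^ (i + 1) / (i + 1))
        + |1 - y| ^ (m + 1) / (1 - |1 - y|) := by
  have h := Real.abs_log_sub_add_sum_range_le hy m
  rw [sub_sub_cancel, abs_le] at h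
  constructor <;> linarith [h.1, h.2]

/-- Numerical value of the logarithm of the majorant for exponents `(56, 92, 74)` at `R = 5.1`. -/
lemma log_majorant :
    56 * Real.log (3821 / 100) + 92 * Real.log (4331 / 100) - 74 * Real.log (51 / 10)
      - 74 * Real.log (2401 / 100) ≤ 194.935 := by
  have l2a := Real.log_two_gt_d9
  have l2b := Real.log_two_lt_d9
  have a1 := (log_series (3821 / 3200) 14 (by norm_num [abs_lt])).2
  have a2 := (log_series (4331 / 3200) 16 (by norm_num [abs_lt])).2
  have a3 := (log_series (51 / 40) 14 (by norm_num [abs_lt])).1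
  have a4 := (log_series (2401 / 3200) 16 (by norm_num [abs_lt])).1
  have e1 : Real.log (3821 / 100) = Real.log (3821 / 3200) + 5 * Real.log 2 := by
    rw [show (3821 : ℝ) / 100 = 3821 / 3200 * 2 ^ 5 by norm_num,
      Real.log_mul (by norm_num) (by norm_num), Real.log_pow]
    norm_num
  have e2 : Real.log (4331 / 100) = Real.log (4331 / 3200) + 5 * Real.log 2 := by
    rw [show (4331 : ℝ) / 100 = 4331 / 3200 * 2 ^ 5 by norm_num,
      Real.log_mul (by norm_num) (by norm_num), Real.log_pow]
    norm_num
  have e3 : Real.log (51 / 10) = Real.log (51 / 40) + 2 * Real.log 2 := by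
    rw [show (51 : ℝ) / 10 = 51 / 40 * 2 ^ 2 by norm_num,
      Real.log_mul (by norm_num) (by norm_num), Real.log_pow]
    norm_num
  have e4 : Real.log (2401 / 100) = Real.log (2401 / 3200) + 5 * Real.log 2 := by
    rw [show (2401 : ℝ) / 100 = 2401 / 3200 * 2 ^ 5 by norm_num,
      Real.log_mul (by norm_num) (by norm_num), Real.log_pow]
    norm_num
  norm_num [Finset.sum_range_succ] at a1 a2 a3 a4
  linarith

end Vale.Agent.P021Pi
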