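import Vale.Agent.P021Pi.Criterion
import Vale.Agent.P021Pi.LogBound
import Vale.Agent.Common.PNT

/-!
# Assembling the bound `mu(pi) <= 6.0375` from the three main ingredients (P021)
-/

namespace Vale.Agent.P021Pi

open Filter

lemma rhoBound_le (n : ℕ) :
    rhoBound (56 * n) (92 * n) (74 * n) (51 / 10) ≤ Real.exp (194.935 * n) := by
  have h : rhoBound (56 * n) (92 * n) (74 * n) (51 / 10)
      = Real.exp ((n : ℝ) * (56 * Real.log (3821 / 100) + 92 * Real.log (4331 / 100)
          - 74 * Real.log (51 / 10) - 74 * Real.log (2401 / 100))) := by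
    rw [rhoBound, pow_mul, pow_mul, pow_mul, pow_mul, ← mul_pow, ← mul_pow, ← div_pow,
      Real.exp_nat_mul]
    congr 1
    have e : ∀ (m : ℕ) (y : ℝ), 0 < y → Real.exp ((m : ℝ) * Real.log y) = y ^ m := fun m y hy => by
      rw [Real.exp_nat_mul, Real.exp_log hy]
    have e1 := e 56 (3821 / 100) (by norm_num)
    have e2 := e 92 (4331 / 100) (by norm_num)
    have e3 := e 74 (51 / 10) (by norm_num)
    have e4 := e 74 (2401 / 100) (by norm_num)
    push_cast at e1 e2 e3 e4
    simp only [Real.exp_sub, Real.exp_add]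
    rw [e1, e2, e3, e4, div_div]
    norm_num
  rw [h]
  apply Real.exp_le_exp.mpr
  have := mul_le_mul_of_nonneg_left log_majorant (show (0 : ℝ) ≤ n from Nat.cast_nonneg n)
  linarith

lemma eventually_log_lcm (δ : ℝ) (hδ : 0 < δ) :
    ∀ᶠ n : ℕ in atTop, (Nat.lcmUpto (74 * n) : ℝ) ≤ Real.exp ((74 + δ) * n) := by
  have hlim : Tendsto (fun n : ℕ => ((74 * n : ℕ) : ℝ)) atTop atTop :=
    tendsto_natCast_atTop_atTop.comp (tendsto_id.const_mul_atTop' (by norm_num : 0 < 74))
  filter_upwards [(Common.PNT.tendsto_psi_div.comp hlim).eventually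
    (eventually_lt_nhds (show (1 : ℝ) < 1 + δ / 74 by linarith [div_pos hδ (show (0:ℝ) < 74 by norm_num)])),
    eventually_ge_atTop 1] with n hn hn1
  have hn0 : (0 : ℝ) < ((74 * n : ℕ) : ℝ) := by exact_mod_cast (show 0 < 74 * n by omega)
  have h1 : Chebyshev.psi ((74 * n : ℕ) : ℝ) ≤ (74 + δ) * n := by
    have := (div_lt_iff₀ hn0).mp hn
    push_cast at this ⊢
    linarith
  rw [Chebyshev.psi_eq_log_lcmUpto] at h1
  calc (Nat.lcmUpto (74 * n) : ℝ) = Real.exp (Real.log (Nat.lcmUpto (74 * n))) :=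
        (Real.exp_log (by exact_mod_cast Nat.lcmUpto_pos _)).symm
    _ ≤ _ := Real.exp_le_exp.mpr h1

/-- The bound on the exponent from the arithmetic, analytic and prime-saving ingredients. -/
theorem exponent_bound_of (harith : ArithmeticStatement)
    (han : AnalyticStatement 56 92 74 (-120.556) (-120.555))
    (hsav : SavingStatement 56 92 74 5.7005) :
    ∃ q₀ : ℕ, ∀ p : ℤ, ∀ q : ℕ, q₀ ≤ q → (q : ℝ) ^ (-(6.0375 : ℝ)) ≤ |Real.pi - p / q| := by
  classical
  obtain ⟨c, hc, hup, hlow⟩ := han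
  -- the denominators, padded to a prescribed size
  set K : ℝ := 74 - 5.7005 + 0.00001 with hK
  have hL : ∀ᶠ n : ℕ in atTop, ∃ L : ℕ, Real.exp (K * n) ≤ L ∧
      (L : ℝ) ≤ Real.exp (K * n + Real.log (2 ^ 11)) ∧ ∃ ρ T : ℤ,
        |(ρ : ℝ)| ≤ Real.exp (194.935 * n) ∧
        4 * (L : ℝ) * (lam (56 * n) (92 * n) (74 * n) c).im = L * ρ * Real.pi + T := by
    filter_upwards [hsav, eventually_log_lcm 0.00001 (by norm_num)] with n hs hlcm
    obtain ⟨s, hs, hsP⟩ := hs
    obtain ⟨hdvd, h⟩ := harith (56 * n) (92 * n) (74 * n) (by ring) ⟨37 * n, by ring⟩ (by omega) s hs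
    obtain ⟨ρ, T, hρ, hform⟩ := h c hc
    set P := ∏ q ∈ s, q with hP
    set L₀ := 2 ^ 10 * (Nat.lcmUpto (74 * n) / P) with hL₀
    have hP0 : (0 : ℝ) < P := lt_of_lt_of_le (Real.exp_pos _) hsP
    have hPN : 0 < P := by exact_mod_cast hP0
    have hq0 : 0 < Nat.lcmUpto (74 * n) / P :=
      Nat.div_pos (Nat.le_of_dvd (Nat.lcmUpto_pos _) hdvd) hPN
    have hL0 : (0 : ℝ) < L₀ := by exact_mod_cast (show 0 < L₀ by positivity)
    have hb : (L₀ : ℝ) ≤ 2 ^ 10 * Real.exp (K * n) := by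
      rw [hL₀, Nat.cast_mul, Nat.cast_div hdvd hP0.ne']
      suffices hd : (Nat.lcmUpto (74 * n) : ℝ) / P ≤ Real.exp (K * n) by
        norm_num
        linarith
      rw [div_le_iff₀ hP0]
      calc (Nat.lcmUpto (74 * n) : ℝ) ≤ Real.exp ((74 + 0.00001) * n) := hlcm
        _ = Real.exp (K * n) * Real.exp (5.7005 * n) := by
          rw [← Real.exp_add, hK]; congr 1; ring
        _ ≤ Real.exp (K * n) * P := by gcongr
    set m := ⌈Real.exp (K * n) / L₀⌉₊ with hm
    refine ⟨L₀ * m, ?_, ?_, ρ, T * m, (hρ (51 / 10) (by norm_num)).trans (rhoBound_le n), ?_⟩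
    · have := Nat.le_ceil (Real.exp (K * n) / L₀)
      rw [← hm, div_le_iff₀ hL0] at this
      push_cast
      linarith
    · have := (Nat.ceil_lt_add_one (show 0 ≤ Real.exp (K * n) / L₀ by positivity)).le
      push_cast
      calc (L₀ : ℝ) * m ≤ L₀ * (Real.exp (K * n) / L₀ + 1) := by gcongr
        _ = Real.exp (K * n) + L₀ := by field_simp
        _ ≤ 2 ^ 11 * Real.exp (K * n) := by
          have := Real.exp_pos (K * n)
          norm_num at hb ⊢
          linarith
        _ = _ := by rw [Real.exp_add, Real.exp_log (by norm_num)]; ring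
    · push_cast
      linear_combination (m : ℝ) * hform
  obtain ⟨N, hN⟩ := eventually_atTop.mp hL
  choose! L hL1 hL2 ρ T hρ hform using hN
  set C : ℝ := Real.log (2 ^ 11) + Real.log 4 with hC
  have hl11 : (0 : ℝ) ≤ Real.log (2 ^ 11) := Real.log_nonneg (by norm_num)
  have hl4 : (0 : ℝ) ≤ Real.log 4 := Real.log_nonneg (by norm_num)
  have hval : ∀ n, N ≤ n → |((L n : ℤ) * ρ n : ℤ) * Real.pi + ((T n : ℤ) : ℝ)|
      = 4 * (L n : ℝ) * |(lam (56 * n) (92 * n) (74 * n) c).im| := by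
    intro n hn
    rw [show (((L n : ℤ) * ρ n : ℤ) : ℝ) = (L n : ℝ) * ρ n by push_cast; ring, ← hform n hn]
    rw [abs_mul, abs_of_nonneg (by positivity : (0 : ℝ) ≤ 4 * (L n : ℝ))]
  refine exponent_le Real.pi (fun n => (L n : ℤ) * ρ n) T (194.935 + K) (120.555 - K)
    (120.556 - K) C (by norm_num [hK]) (by norm_num [hK]) (by linarith) ?_ ?_ ?_ 6.0375
    (by norm_num [hK]) (by norm_num [hK])
  · filter_upwards [eventually_ge_atTop N] with n hn
    push_cast
    rw [abs_mul, Nat.abs_cast]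
    calc (L n : ℝ) * |(ρ n : ℝ)| ≤ Real.exp (K * n + Real.log (2 ^ 11)) * Real.exp (194.935 * n) :=
          mul_le_mul (hL2 n hn) (hρ n hn) (abs_nonneg _) (Real.exp_pos _).le
      _ ≤ _ := by rw [← Real.exp_add]; apply Real.exp_le_exp.mpr; rw [add_mul, hC]; linarith
  · filter_upwards [eventually_ge_atTop N, hup] with n hn hu
    rw [hval n hn]
    calc 4 * (L n : ℝ) * |(lam (56 * n) (92 * n) (74 * n) c).im|
        ≤ 4 * Real.exp (K * n + Real.log (2 ^ 11)) * Real.exp (-120.555 * n) := by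
          gcongr
          exact hL2 n hn
      _ = _ := by
        nth_rewrite 1 [show (4 : ℝ) = Real.exp (Real.log 4) from (Real.exp_log (by norm_num)).symm]
        rw [← Real.exp_add, ← Real.exp_add, hC]
        congr 1
        ring
  · filter_upwards [eventually_ge_atTop N, hlow] with n hn hl
    rcases hl with h | h
    · left
      rw [hval n hn]
      calc Real.exp (-(120.556 - K) * n - C) ≤ Real.exp (K * n) * Real.exp (-120.556 * n) := by
            rw [← Real.exp_add]; apply Real.exp_le_exp.mpr; linarith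
        _ ≤ (L n : ℝ) * |(lam (56 * n) (92 * n) (74 * n) c).im| :=
            mul_le_mul (hL1 n hn) h (Real.exp_pos _).le (Nat.cast_nonneg _)
        _ ≤ _ := by
            have := mul_nonneg (Nat.cast_nonneg (α := ℝ) (L n))
              (abs_nonneg (lam (56 * n) (92 * n) (74 * n) c).im)
            linarith
    · right
      rw [hval (n + 1) (by omega)]
      calc Real.exp (-(120.556 - K) * (n + 1 : ℕ) - C)
          ≤ Real.exp (K * (n + 1 : ℕ)) * Real.exp (-120.556 * n) := by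
            rw [← Real.exp_add]; apply Real.exp_le_exp.mpr
            push_cast
            linarith
        _ ≤ (L (n + 1) : ℝ) * |(lam (56 * (n + 1)) (92 * (n + 1)) (74 * (n + 1)) c).im| :=
            mul_le_mul (hL1 (n + 1) (by omega)) h (Real.exp_pos _).le (Nat.cast_nonneg _)
        _ ≤ _ := by
            have := mul_nonneg (Nat.cast_nonneg (α := ℝ) (L (n + 1)))
              (abs_nonneg (lam (56 * (n + 1)) (92 * (n + 1)) (74 * (n + 1)) c).im)
            linarith

/-- The irrationality exponent statement from the three ingredients. -/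
theorem irrationality_exponent_of (harith : ArithmeticStatement)
    (han : AnalyticStatement 56 92 74 (-120.556) (-120.555))
    (hsav : SavingStatement 56 92 74 5.7005) (ν : ℝ)
    (hinf : {x : ℤ × ℕ | 2 ≤ x.2 ∧ Int.gcd x.1 x.2 = 1 ∧ 0 < |Real.pi - x.1 / x.2| ∧
      |Real.pi - x.1 / x.2| < (x.2 : ℝ) ^ (-ν)}.Infinite) : ν ≤ 6.0375 := by
  by_contra hν
  rw [not_le] at hν
  obtain ⟨q₀, hq₀⟩ := exponent_bound_of harith han hsav
  apply hinf
  refine Set.Finite.subset ((Finset.Icc (-(5 * (q₀ : ℤ))) (5 * q₀) ×ˢ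
    Finset.range (q₀ + 1)).finite_toSet) ?_
  rintro ⟨p, q⟩ ⟨hq2, -, -, hlt⟩
  simp only [Finset.coe_product, Set.mem_prod, Finset.mem_coe, Finset.mem_Icc, Finset.mem_range]
  have hq1 : (1 : ℝ) ≤ q := by exact_mod_cast (show 1 ≤ q by omega)
  have hqlt : q < q₀ := by
    by_contra hqq
    have h1 := hq₀ p q (not_lt.mp hqq)
    have h2 : (q : ℝ) ^ (-ν) ≤ (q : ℝ) ^ (-(6.0375 : ℝ)) :=
      Real.rpow_le_rpow_of_exponent_le hq1 (by linarith)
    linarith
  have h1 : |Real.pi - (p : ℝ) / q| < 1 := by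
    refine hlt.trans_le ?_
    calc (q : ℝ) ^ (-ν) ≤ (q : ℝ) ^ (0 : ℝ) :=
          Real.rpow_le_rpow_of_exponent_le hq1 (by norm_num at hν; linarith)
      _ = 1 := Real.rpow_zero _
  have hp : |(p : ℝ)| ≤ 5 * q₀ := by
    have h2 := abs_sub_abs_le_abs_sub ((p : ℝ) / q) Real.pi
    rw [abs_sub_comm, abs_div, Nat.abs_cast, abs_of_pos Real.pi_pos] at h2
    have h3 : |(p : ℝ)| / q ≤ 5 := by linarith [Real.pi_lt_four]
    rw [div_le_iff₀ (by linarith)] at h3
    have : (q : ℝ) ≤ q₀ := by exact_mod_cast hqlt.le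
    linarith
  refine ⟨?_, by omega⟩
  rw [← abs_le]
  exact_mod_cast hp

end Vale.Agent.P021Pi
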