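import Vale.Agent.P021Pi.Defs

/-!
# From small linear forms in `1, pi` to the irrationality exponent (P021)
-/

namespace Vale.Agent.P021Pi

open Filter

/-- Upper bound on the exponent from two-sided bounds on linear forms. -/
lemma exponent_le (x : ℝ) (Q P : ℕ → ℤ) (σ τ τ' C : ℝ) (hτ : 0 < τ) (hσ : 0 ≤ σ) (hC : 0 ≤ C)
    (hQ : ∀ᶠ n : ℕ in atTop, |(Q n : ℝ)| ≤ Real.exp (σ * n + C))
    (hup : ∀ᶠ n : ℕ in atTop, |(Q n : ℝ) * x + P n| ≤ Real.exp (-τ * n + C))
    (hlow : ∀ᶠ n : ℕ in atTop, Real.exp (-τ' * n - C) ≤ |(Q n : ℝ) * x + P n| ∨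
      Real.exp (-τ' * (n + 1 : ℕ) - C) ≤ |(Q (n + 1) : ℝ) * x + P (n + 1)|)
    (ν : ℝ) (hν : (σ + τ') / τ < ν) (hν1 : 1 + σ / τ < ν) :
    ∃ q₀ : ℕ, ∀ p : ℤ, ∀ q : ℕ, q₀ ≤ q → (q : ℝ) ^ (-ν) ≤ |x - p / q| := by
  obtain ⟨N, hN⟩ := eventually_atTop.mp (hQ.and (hup.and hlow))
  have hδ₁ : 0 < ν * τ - (σ + τ') := by rw [div_lt_iff₀ hτ] at hν; linarith
  have hδ₂ : 0 < (ν - 1) * τ - σ := by
    have h := hν1
    rw [← sub_pos, show ν - (1 + σ / τ) = ((ν - 1) * τ - σ) / τ by field_simp; ring] at h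
    exact (div_pos_iff_of_pos_right hτ).mp h
  set K := C + Real.log 4 with hK
  have hlim : Tendsto (fun q : ℕ => Real.log q) atTop atTop :=
    Real.tendsto_log_atTop.comp tendsto_natCast_atTop_atTop
  set M := max ((N : ℝ) * τ) (max
    (((σ + |σ + τ'|) * ((C + Real.log 2) / τ + 2) + 2 * C + 1) / ((ν * τ - (σ + τ')) / τ))
    ((σ * ((C + Real.log 2) / τ + 2) + C + Real.log 2 + 1) / (((ν - 1) * τ - σ) / τ))) with hM
  obtain ⟨q₀, hq₀⟩ := eventually_atTop.mp
    ((eventually_ge_atTop 1).and (hlim.eventually (eventually_ge_atTop M)))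
  refine ⟨q₀, fun p q hq => ?_⟩
  obtain ⟨hq1, hqM⟩ := hq₀ q hq
  have hqpos : (0 : ℝ) < q := by exact_mod_cast hq1
  set l := Real.log q with hl
  have hl0 : 0 ≤ l := Real.log_natCast_nonneg q
  have hlog2 : 0 < Real.log 2 := Real.log_pos one_lt_two
  set n₀ := ⌈(l + Real.log 2 + C) / τ⌉₊ with hn₀
  have hn1 : (l + Real.log 2 + C) / τ ≤ n₀ := Nat.le_ceil _
  have hn2 : (n₀ : ℝ) < (l + Real.log 2 + C) / τ + 1 := Nat.ceil_lt_add_one (by positivity)
  have hnN : N ≤ n₀ := by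
    have h1 : (N : ℝ) * τ ≤ l := (le_max_left _ _).trans hqM
    have h2 : l ≤ n₀ * τ := by
      rw [div_le_iff₀ hτ] at hn1
      linarith
    exact_mod_cast le_of_mul_le_mul_right (h1.trans h2) hτ
  obtain ⟨n, hn, hn', hlown⟩ : ∃ n, n₀ ≤ n ∧ n ≤ n₀ + 1 ∧
      Real.exp (-τ' * n - C) ≤ |(Q n : ℝ) * x + P n| := by
    rcases (hN n₀ hnN).2.2 with h | h
    · exact ⟨n₀, le_rfl, Nat.le_succ _, h⟩
    · exact ⟨n₀ + 1, Nat.le_succ _, le_rfl, h⟩
  obtain ⟨hQn, hupn, -⟩ := hN n (hnN.trans hn)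
  have hnlo : (l + Real.log 2 + C) / τ ≤ n := hn1.trans (by exact_mod_cast hn)
  have hnhi : (n : ℝ) ≤ l / τ + ((C + Real.log 2) / τ + 2) := by
    have : (n : ℝ) ≤ n₀ + 1 := by exact_mod_cast hn'
    have e : (l + Real.log 2 + C) / τ = l / τ + (C + Real.log 2) / τ := by ring
    linarith
  by_contra hcon
  rw [not_le] at hcon
  have hpow : (q : ℝ) ^ (-ν) = Real.exp (-ν * l) := by
    rw [Real.rpow_def_of_pos hqpos, hl]; ring_nf
  rw [hpow] at hcon
  have key : (q : ℝ) * ((Q n : ℝ) * x + P n)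
      = (q : ℝ) * (Q n) * (x - p / q) + ((Q n * p + P n * q : ℤ) : ℝ) := by
    push_cast
    field_simp
    ring
  have hbig : |(Q n : ℝ)| * |x - p / q| < Real.exp (σ * n + C - ν * l) := by
    calc |(Q n : ℝ)| * |x - p / q| ≤ Real.exp (σ * n + C) * |x - p / q| := by gcongr
      _ < Real.exp (σ * n + C) * Real.exp (-ν * l) := by gcongr
      _ = _ := by rw [← Real.exp_add]; ring_nf
  rcases eq_or_ne (Q n * p + P n * q) 0 with h0 | h0
  · rw [h0, Int.cast_zero, add_zero, mul_assoc] at key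
    have h1 := mul_left_cancel₀ hqpos.ne' key
    rw [h1, abs_mul] at hlown
    have h2 := Real.exp_lt_exp.mp (hlown.trans_lt hbig)
    have h4 : (σ + τ') * n ≤ (σ + τ') * (l / τ)
        + (σ + |σ + τ'|) * ((C + Real.log 2) / τ + 2) := by
      rcases le_or_gt 0 (σ + τ') with hs | hs
      · have := mul_le_mul_of_nonneg_left hnhi hs
        rw [abs_of_nonneg hs]
        nlinarith [show 0 ≤ (C + Real.log 2) / τ + 2 by positivity]
      · have h6 : l / τ ≤ n := le_trans (by gcongr; linarith) hnlo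
        have := mul_le_mul_of_nonpos_left h6 hs.le
        have : 0 ≤ (σ + |σ + τ'|) * ((C + Real.log 2) / τ + 2) := by positivity
        linarith
    have h5 := ((le_max_left _ _).trans (le_max_right _ _)).trans hqM
    rw [div_le_iff₀ (by positivity)] at h5
    have e : l * ((ν * τ - (σ + τ')) / τ) = ν * l - (σ + τ') * (l / τ) := by field_simp
    rw [e] at h5
    linarith
  · have h1 : (1 : ℝ) ≤ |((Q n * p + P n * q : ℤ) : ℝ)| := by
      exact_mod_cast Int.one_le_abs h0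
    have h2 : |(q : ℝ) * ((Q n : ℝ) * x + P n)| ≤ 1 / 2 := by
      rw [abs_mul, abs_of_pos hqpos]
      calc (q : ℝ) * |(Q n : ℝ) * x + P n| ≤ Real.exp l * Real.exp (-τ * n + C) := by
            rw [hl, Real.exp_log hqpos]; gcongr
        _ ≤ Real.exp (-Real.log 2) := by
            rw [← Real.exp_add]
            apply Real.exp_le_exp.mpr
            rw [div_le_iff₀ hτ] at hnlo
            linarith
        _ = 1 / 2 := by rw [Real.exp_neg, Real.exp_log two_pos, one_div]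
    have h3 : |(q : ℝ) * (Q n) * (x - p / q)| < Real.exp (l + σ * n + C - ν * l) := by
      rw [abs_mul, abs_mul, abs_of_pos hqpos, mul_assoc]
      calc (q : ℝ) * (|(Q n : ℝ)| * |x - p / q|) < q * Real.exp (σ * n + C - ν * l) := by gcongr
        _ = _ := by
          conv_lhs => rw [show (q : ℝ) = Real.exp l from (Real.exp_log hqpos).symm]
          rw [← Real.exp_add]
          ring_nf
    have h4 : 1 / 2 < Real.exp (l + σ * n + C - ν * l) := by
      have := abs_sub_abs_le_abs_sub ((Q n * p + P n * q : ℤ) : ℝ)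
        (-((q : ℝ) * (Q n) * (x - p / q)))
      rw [sub_neg_eq_add, abs_neg, add_comm _ ((q : ℝ) * (Q n) * (x - p / q)), ← key] at this
      linarith
    rw [show (1 : ℝ) / 2 = Real.exp (-Real.log 2) by
      rw [Real.exp_neg, Real.exp_log two_pos, one_div], Real.exp_lt_exp] at h4
    have h5 := ((le_max_right _ _).trans (le_max_right _ _)).trans hqM
    rw [div_le_iff₀ (by positivity)] at h5
    have e : l * (((ν - 1) * τ - σ) / τ) = (ν - 1) * l - σ * (l / τ) := by field_simp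
    rw [e] at h5
    have h6 := mul_le_mul_of_nonneg_left hnhi hσ
    linarith

end Vale.Agent.P021Pi
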