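import Vale.Agent.P021Pi.Rings

/-!
# Integral partial fractions and primitives at the poles `0, ±√2` (P021)
-/

namespace Vale.Agent.P021Pi

open Polynomial

/-- The domain of the integrand. -/
def dom : Set ℂ := {z | z ≠ 0 ∧ z ^ 2 - 2 ≠ 0}

lemma dom_sub {z : ℂ} (hz : z ∈ dom) : z - rtwo ≠ 0 ∧ z + rtwo ≠ 0 := by
  have h : (z - rtwo) * (z + rtwo) = z ^ 2 - 2 := by rw [← rtwo_sq]; ring
  rw [← mul_ne_zero_iff, h]
  exact hz.2

lemma dom_of_im {z : ℂ} (hz : z.im ≠ 0) : z ∈ dom := by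
  refine ⟨fun h => hz (by simp [h]), fun h => ?_⟩
  have h2 : (z - rtwo) * (z + rtwo) = 0 := by rw [← h, ← rtwo_sq]; ring
  rcases mul_eq_zero.mp h2 with h3 | h3
  · rw [sub_eq_zero.mp h3] at hz; simp [rtwo] at hz
  · rw [eq_neg_of_add_eq_zero_left h3] at hz; simp [rtwo] at hz

lemma two_mem_dom : (2 : ℂ) ∈ dom := ⟨two_ne_zero, by norm_num⟩

/-- The elementary integrands `1 / (z^m (z-√2)^k (z+√2)^l)`. -/
noncomputable def pole (m k l : ℕ) (z : ℂ) : ℂ :=
  1 / (z ^ m * (z - rtwo) ^ k * (z + rtwo) ^ l)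

/-- The log-derivative part of the decomposition. -/
noncomputable def logPart (ρ₀ ρ₁ ρ₂ : ℂ) (z : ℂ) : ℂ :=
  ρ₀ / z + ρ₁ / (z - rtwo) + ρ₂ / (z + rtwo)

/-- `f` is a derivative up to residues summing to `σ`, with controlled values at `pts`. -/
def Prim (O : Subring ℂ) (Lc : ℕ) (pts : Set ℂ) (f : ℂ → ℂ) (σ : ℂ) : Prop :=
  ∃ G : ℂ → ℂ, ∃ ρ₀ ρ₁ ρ₂ : ℂ, ρ₀ + ρ₁ + ρ₂ = σ ∧
    (∀ z ∈ dom, HasDerivAt G (f z - logPart ρ₀ ρ₁ ρ₂ z) z) ∧ ∀ p ∈ pts, (Lc : ℂ) * G p ∈ O

/-- Points at which the elementary primitives take values in `O`. -/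
def GoodPts (O : Subring ℂ) (pts : Set ℂ) : Prop :=
  ∀ p ∈ pts, p ∈ O ∧ p⁻¹ ∈ O ∧ (p - rtwo)⁻¹ ∈ O ∧ (p + rtwo)⁻¹ ∈ O

variable {O : Subring ℂ} {Lc : ℕ} {pts : Set ℂ}

lemma prim_zero : Prim O Lc pts (fun _ => 0) 0 :=
  ⟨fun _ => 0, 0, 0, 0, by simp, fun z _ => by simpa [logPart] using hasDerivAt_const z (0 : ℂ),
    fun p _ => by simp⟩

lemma prim_add {f g : ℂ → ℂ} {σ τ : ℂ} (hf : Prim O Lc pts f σ) (hg : Prim O Lc pts g τ) :
    Prim O Lc pts (fun z => f z + g z) (σ + τ) := by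
  obtain ⟨G, a, b, c, rfl, hG, hGp⟩ := hf
  obtain ⟨K, a', b', c', rfl, hK, hKp⟩ := hg
  refine ⟨fun z => G z + K z, a + a', b + b', c + c', by ring, fun z hz => ?_, fun p hp => ?_⟩
  · exact ((hG z hz).add (hK z hz)).congr_deriv (by unfold logPart; ring)
  · rw [mul_add]
    exact O.add_mem (hGp p hp) (hKp p hp)

lemma prim_smul {f : ℂ → ℂ} {σ : ℂ} {c : ℂ} (hc : c ∈ O) (hf : Prim O Lc pts f σ) :
    Prim O Lc pts (fun z => c * f z) (c * σ) := by
  obtain ⟨G, a, b, d, rfl, hG, hGp⟩ := hf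
  refine ⟨fun z => c * G z, c * a, c * b, c * d, by ring, fun z hz => ?_, fun p hp => ?_⟩
  · exact ((hG z hz).const_mul c).congr_deriv (by unfold logPart; ring)
  · rw [mul_left_comm]
    exact O.mul_mem hc (hGp p hp)

lemma prim_congr {f g : ℂ → ℂ} {σ τ : ℂ} (hf : Prim O Lc pts f σ) (h : ∀ z ∈ dom, g z = f z)
    (hστ : τ = σ) : Prim O Lc pts g τ := by
  obtain ⟨G, a, b, c, hs, hG, hGp⟩ := hf
  exact ⟨G, a, b, c, hs.trans hστ.symm, fun z hz => by rw [h z hz]; exact hG z hz, hGp⟩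

lemma prim_sum {ι : Type*} (s : Finset ι) {f : ι → ℂ → ℂ} {σ : ι → ℂ}
    (h : ∀ i ∈ s, Prim O Lc pts (f i) (σ i)) :
    Prim O Lc pts (fun z => ∑ i ∈ s, f i z) (∑ i ∈ s, σ i) := by
  classical
  induction s using Finset.induction_on with
  | empty => simpa using (prim_zero (O := O) (Lc := Lc) (pts := pts))
  | insert a s ha ih =>
    simp only [Finset.sum_insert ha]
    exact prim_add (h a (Finset.mem_insert_self a s))
      (ih fun i hi => h i (Finset.mem_insert_of_mem hi))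

lemma natCast_div_mem {j : ℕ} (hj : j ∣ Lc) {x : ℂ} (hx : x ∈ O) :
    (Lc : ℂ) * (x / j) ∈ O := by
  obtain ⟨e, rfl⟩ := hj
  rcases eq_or_ne j 0 with rfl | hj0
  · simp
  rw [show ((j * e : ℕ) : ℂ) * (x / j) = (e : ℂ) * x by
    push_cast; field_simp [Nat.cast_ne_zero.mpr hj0]]
  exact O.mul_mem (natCast_mem O e) hx

/-- A single pole `1/(z-b)^(j+1)`. -/
lemma prim_single (b : ℂ) (hb : b = 0 ∨ b = rtwo ∨ b = -rtwo) (hpts : GoodPts O pts) (j : ℕ)
    (hj : j = 0 ∨ j ∣ Lc) :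
    Prim O Lc pts (fun z => 1 / (z - b) ^ (j + 1)) (if j = 0 then 1 else 0) := by
  rcases Nat.eq_zero_or_pos j with rfl | hj0
  · refine ⟨fun _ => 0, if b = 0 then 1 else 0, if b = rtwo then 1 else 0,
      if b = -rtwo then 1 else 0, ?_, fun z hz => ?_, fun p _ => by simp⟩
    · rcases hb with rfl | rfl | rfl <;>
        simp [rtwo_ne_zero, Ne.symm rtwo_ne_zero, eq_neg_iff_add_eq_zero, neg_eq_iff_add_eq_zero]
    · refine (hasDerivAt_const z (0 : ℂ)).congr_deriv ?_
      rcases hb with rfl | rfl | rfl <;>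
        simp [logPart, rtwo_ne_zero, Ne.symm rtwo_ne_zero, eq_neg_iff_add_eq_zero,
          neg_eq_iff_add_eq_zero]
  · have hdvd : j ∣ Lc := hj.resolve_left (by omega)
    refine ⟨fun z => -((z - b)⁻¹ ^ j / j), 0, 0, 0, by simp [show j ≠ 0 by omega],
      fun z hz => ?_, fun p hp => ?_⟩
    · have hzb : z - b ≠ 0 := by
        rcases hb with rfl | rfl | rfl
        · simpa using hz.1
        · exact (dom_sub hz).1
        · simpa using (dom_sub hz).2
      have h : HasDerivAt (fun z => -((z - b)⁻¹ ^ j / (j : ℂ)))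
          (-((j : ℂ) * (z - b)⁻¹ ^ (j - 1) * (-1 / (z - b) ^ 2) / j)) z :=
        ((((hasDerivAt_id z).sub_const b).fun_inv hzb).fun_pow j).div_const (j : ℂ) |>.fun_neg
      refine h.congr_deriv ?_
      obtain ⟨i, rfl⟩ : ∃ i, j = i + 1 := ⟨j - 1, by omega⟩
      have : (((i + 1 : ℕ)) : ℂ) ≠ 0 := Nat.cast_ne_zero.mpr (by omega)
      simp only [logPart, Nat.add_sub_cancel, inv_pow]
      field_simp
      ring
    · have hq : (p - b)⁻¹ ∈ O := by
        obtain ⟨-, h0, h1, h2⟩ := hpts p hp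
        rcases hb with rfl | rfl | rfl
        · simpa using h0
        · exact h1
        · simpa using h2
      rw [mul_neg]
      exact O.neg_mem (natCast_div_mem hdvd (O.pow_mem hq j))

/-- A monomial. -/
lemma prim_monomial (hpts : GoodPts O pts) (i : ℕ) (hi : i + 1 ∣ Lc) :
    Prim O Lc pts (fun z => z ^ i) 0 := by
  refine ⟨fun z => z ^ (i + 1) / ((i + 1 : ℕ) : ℂ), 0, 0, 0, by simp, fun z _ => ?_,
    fun p hp => natCast_div_mem hi (O.pow_mem (hpts p hp).1 _)⟩
  refine ((hasDerivAt_pow (i + 1) z).div_const _).congr_deriv ?_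
  have : (((i + 1 : ℕ)) : ℂ) ≠ 0 := Nat.cast_ne_zero.mpr (by omega)
  simp only [logPart, Nat.add_sub_cancel]
  field_simp
  ring

section

variable (hinv : rtwo⁻¹ ∈ O) (hinv2 : (2 * rtwo)⁻¹ ∈ O) (ha : rtwo ∈ O) (hpts : GoodPts O pts)
  (M : ℕ) (hLc : ∀ j, 1 ≤ j → j ≤ M → j ∣ Lc)

include hinv hinv2 hpts hLc in
lemma prim_pole : ∀ T m k l : ℕ, m + k + l = T → 0 < T → m ≤ M + 1 → k ≤ M + 1 → l ≤ M + 1 →
    Prim O Lc pts (pole m k l) (if T = 1 then 1 else 0) := by
  intro T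
  induction T using Nat.strong_induction_on with
  | _ T ih =>
    intro m k l hT hT0 hm hk hl
    have ha0 := rtwo_ne_zero
    have key : ∀ (c : ℂ) (m₁ k₁ l₁ m₂ k₂ l₂ : ℕ), c ∈ O → 2 ≤ T →
        m₁ + k₁ + l₁ + 1 = T → m₂ + k₂ + l₂ + 1 = T →
        m₁ ≤ M + 1 → k₁ ≤ M + 1 → l₁ ≤ M + 1 → m₂ ≤ M + 1 → k₂ ≤ M + 1 → l₂ ≤ M + 1 →
        (∀ z ∈ dom, pole m k l z = c * (pole m₁ k₁ l₁ z + (-1) * pole m₂ k₂ l₂ z)) →
        Prim O Lc pts (pole m k l) (if T = 1 then 1 else 0) := by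
      intro c m₁ k₁ l₁ m₂ k₂ l₂ hc hT2 e₁ e₂ a₁ b₁ c₁ a₂ b₂ c₂ he
      refine prim_congr (prim_smul hc (prim_add
        (ih (T - 1) (by omega) m₁ k₁ l₁ (by omega) (by omega) a₁ b₁ c₁)
        (prim_smul (O.neg_mem O.one_mem)
          (ih (T - 1) (by omega) m₂ k₂ l₂ (by omega) (by omega) a₂ b₂ c₂)))) he ?_
      rw [if_neg (show T ≠ 1 by omega)]
      ring
    rcases Nat.eq_zero_or_pos m with rfl | hm0 <;> rcases Nat.eq_zero_or_pos k with rfl | hk0
    · obtain ⟨i, rfl⟩ : ∃ i, l = i + 1 := ⟨l - 1, by omega⟩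
      refine prim_congr (prim_single (-rtwo) (by simp) hpts i ?_)
        (fun z _ => by simp [pole]) (by simp [← hT])
      exact (Nat.eq_zero_or_pos i).imp id fun h => hLc i h (by omega)
    · rcases Nat.eq_zero_or_pos l with rfl | hl0
      · obtain ⟨i, rfl⟩ : ∃ i, k = i + 1 := ⟨k - 1, by omega⟩
        refine prim_congr (prim_single rtwo (by simp) hpts i ?_)
          (fun z _ => by simp [pole]) (by simp [← hT])
        exact (Nat.eq_zero_or_pos i).imp id fun h => hLc i h (by omega)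
      · obtain ⟨k, rfl⟩ : ∃ i, k = i + 1 := ⟨k - 1, by omega⟩
        obtain ⟨l, rfl⟩ : ∃ i, l = i + 1 := ⟨l - 1, by omega⟩
        refine key (2 * rtwo)⁻¹ 0 (k + 1) l 0 k (l + 1) hinv2 (by omega) (by omega) (by omega)
          (by omega) (by omega) (by omega) (by omega) (by omega) (by omega) fun z hz => ?_
        obtain ⟨h1, h2⟩ := dom_sub hz
        simp only [pole, pow_succ]
        field_simp
        ring
    · rcases Nat.eq_zero_or_pos l with rfl | hl0
      · obtain ⟨i, rfl⟩ : ∃ i, m = i + 1 := ⟨m - 1, by omega⟩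
        refine prim_congr (prim_single 0 (by simp) hpts i ?_)
          (fun z _ => by simp [pole]) (by simp [← hT])
        exact (Nat.eq_zero_or_pos i).imp id fun h => hLc i h (by omega)
      · obtain ⟨m, rfl⟩ : ∃ i, m = i + 1 := ⟨m - 1, by omega⟩
        obtain ⟨l, rfl⟩ : ∃ i, l = i + 1 := ⟨l - 1, by omega⟩
        refine key rtwo⁻¹ (m + 1) 0 l m 0 (l + 1) hinv (by omega) (by omega) (by omega)
          (by omega) (by omega) (by omega) (by omega) (by omega) (by omega) fun z hz => ?_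
        obtain ⟨h1, h2⟩ := dom_sub hz
        have h0 := hz.1
        simp only [pole, pow_succ]
        field_simp
        ring
    · obtain ⟨m, rfl⟩ : ∃ i, m = i + 1 := ⟨m - 1, by omega⟩
      obtain ⟨k, rfl⟩ : ∃ i, k = i + 1 := ⟨k - 1, by omega⟩
      refine key rtwo⁻¹ m (k + 1) l (m + 1) k l hinv (by omega) (by omega) (by omega)
        (by omega) (by omega) (by omega) (by omega) (by omega) (by omega) fun z hz => ?_
      obtain ⟨h1, h2⟩ := dom_sub hz
      have h0 := hz.1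
      simp only [pole, pow_succ]
      field_simp
      ring

include hinv hinv2 ha hpts hLc in
lemma prim_mono_pole : ∀ i m k l : ℕ, i < m + k + l → m ≤ M + 1 → k ≤ M + 1 → l ≤ M + 1 →
    Prim O Lc pts (fun z => z ^ i * pole m k l z) (if i + 1 = m + k + l then 1 else 0) := by
  intro i
  induction i with
  | zero =>
    intro m k l hi hm hk hl
    refine prim_congr (prim_pole hinv hinv2 hpts M hLc (m + k + l) m k l rfl hi hm hk hl)
      (fun z _ => by simp) ?_
    simp [eq_comm]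
  | succ i ih =>
    intro m k l hi hm hk hl
    rcases Nat.eq_zero_or_pos m with rfl | hm0
    · rcases Nat.eq_zero_or_pos k with rfl | hk0
      · obtain ⟨l, rfl⟩ : ∃ j, l = j + 1 := ⟨l - 1, by omega⟩
        refine prim_congr (prim_add (ih 0 0 l (by omega) hm hk (by omega))
          (prim_smul (O.neg_mem ha) (ih 0 0 (l + 1) (by omega) hm hk hl))) (fun z hz => ?_) ?_
        · obtain ⟨h1, h2⟩ := dom_sub hz
          simp only [pole, pow_succ]
          field_simp
          ring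
        · rw [if_neg (show i + 1 ≠ 0 + 0 + (l + 1) by omega), mul_zero, add_zero]
          split_ifs <;> first | omega | simp
      · obtain ⟨k, rfl⟩ : ∃ j, k = j + 1 := ⟨k - 1, by omega⟩
        refine prim_congr (prim_add (ih 0 k l (by omega) hm (by omega) hl)
          (prim_smul ha (ih 0 (k + 1) l (by omega) hm hk hl))) (fun z hz => ?_) ?_
        · obtain ⟨h1, h2⟩ := dom_sub hz
          simp only [pole, pow_succ]
          field_simp
          ring
        · rw [if_neg (show i + 1 ≠ 0 + (k + 1) + l by omega), mul_zero, add_zero]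
          split_ifs <;> first | rfl | omega
    · obtain ⟨m, rfl⟩ : ∃ j, m = j + 1 := ⟨m - 1, by omega⟩
      refine prim_congr (ih m k l (by omega) (by omega) hk hl) (fun z hz => ?_) ?_
      · obtain ⟨h1, h2⟩ := dom_sub hz
        have h0 := hz.1
        simp only [pole, pow_succ]
        field_simp
      · split_ifs <;> first | rfl | omega

include hinv hinv2 ha hpts hLc in
/-- A rational function with integer numerator and poles at `0, ±√2`. -/
lemma prim_rat (N : ℤ[X]) (m h : ℕ) (hm : m ≤ M + 1) (hh : h ≤ M + 1)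
    (hN : N.natDegree + 1 ≤ M + (m + 2 * h)) (h0 : 0 < m + 2 * h) :
    ∃ σ : ℤ, Prim O Lc pts (fun z => aeval z N / (z ^ m * (z ^ 2 - 2) ^ h)) σ := by
  classical
  set d : ℤ[X] := X ^ m * (X ^ 2 - C 2) ^ h with hd
  have hmon : d.Monic := (monic_X_pow m).mul ((monic_X_pow_sub_C 2 (by norm_num)).pow h)
  have hdeg : d.natDegree = m + 2 * h := by
    rw [hd, (monic_X_pow m).natDegree_mul ((monic_X_pow_sub_C 2 (by norm_num)).pow h),
      natDegree_X_pow, (monic_X_pow_sub_C (2 : ℤ) (by norm_num)).natDegree_pow,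
      natDegree_X_pow_sub_C]
    ring
  have hsplit := modByMonic_add_div N d
  set R := N %ₘ d with hR
  set U := N /ₘ d with hU
  refine ⟨R.coeff (m + 2 * h - 1), ?_⟩
  have hRdeg : R.natDegree < m + 2 * h := by
    rw [← hdeg]
    exact natDegree_modByMonic_lt N hmon fun h1 => by rw [h1, natDegree_one] at hdeg; omega
  have hUdeg : ∀ i ∈ U.support, i + 1 ≤ M := by
    intro i hi
    have hiU : i ≤ U.natDegree := le_natDegree_of_mem_supp i hi
    rw [hU, natDegree_divByMonic N hmon, hdeg] at hiU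
    have hne : U.natDegree = N.natDegree - (m + 2 * h) := by
      rw [hU, natDegree_divByMonic N hmon, hdeg]
    rcases le_or_gt (m + 2 * h) N.natDegree with h1 | h1
    · omega
    · exfalso
      have : U = 0 := (divByMonic_eq_zero_iff hmon).mpr
        (degree_lt_degree (by rw [hdeg]; exact h1))
      simp [this] at hi
  refine prim_congr (prim_add
    (prim_sum U.support fun i hi => prim_smul (intCast_mem O (U.coeff i))
      (prim_monomial hpts i (hLc (i + 1) (by omega) (hUdeg i hi))))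
    (prim_sum (Finset.range (m + 2 * h)) fun i hi => prim_smul (intCast_mem O (R.coeff i))
      (prim_mono_pole hinv hinv2 ha hpts M hLc i m h h
        (by have := Finset.mem_range.mp hi; omega) hm hh hh))) (fun z hz => ?_) ?_
  · obtain ⟨h1, h2⟩ := dom_sub hz
    have hden : aeval z d = z ^ m * (z ^ 2 - 2) ^ h := by simp [hd, map_ofNat]
    have hne : z ^ m * (z ^ 2 - 2) ^ h ≠ 0 :=
      mul_ne_zero (pow_ne_zero _ hz.1) (pow_ne_zero _ hz.2)
    have eU : ∑ i ∈ U.support, (U.coeff i : ℂ) * z ^ i = aeval z U := by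
      rw [aeval_eq_sum_range' (Nat.lt_succ_self U.natDegree)]
      simp only [zsmul_eq_mul]
      refine Finset.sum_subset (fun i hi => Finset.mem_range.mpr
        (Nat.lt_succ_of_le (le_natDegree_of_mem_supp i hi))) fun i _ hi => ?_
      simp [notMem_support_iff.mp hi]
    have ep : pole m h h z = 1 / (z ^ m * (z ^ 2 - 2) ^ h) := by
      rw [pole, mul_assoc, ← mul_pow, ← rtwo_sq]
      ring_nf
    have eR : ∑ i ∈ Finset.range (m + 2 * h), (R.coeff i : ℂ) * (z ^ i * pole m h h z)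
        = aeval z R / (z ^ m * (z ^ 2 - 2) ^ h) := by
      rw [aeval_eq_sum_range' hRdeg, Finset.sum_div]
      refine Finset.sum_congr rfl fun i _ => ?_
      rw [ep, zsmul_eq_mul]
      ring
    rw [eU, eR]
    conv_lhs => rw [← hsplit]
    rw [map_add, map_mul, hden, add_div, mul_div_cancel_left₀ _ hne, add_comm]
  · simp only [mul_zero, Finset.sum_const_zero, zero_add, mul_ite, mul_one]
    rw [Finset.sum_eq_single (m + 2 * h - 1)]
    · rw [if_pos (by omega)]
    · intro i hi hne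
      rw [if_neg]
      omega
    · intro hn
      exact absurd (Finset.mem_range.mpr (by omega)) hn

end

end Vale.Agent.P021Pi
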