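import Mathlib

/-!
# Definitions for the bound on the irrationality exponent of pi (P021)

The integrand is `(z^2-2z+2)^A ((z-1)(z-2))^B / (z^(H+1) (z^2-2)^H)` with `A + B = 2H`;
it is antisymmetric under `z -> 2/z` (as a differential form).
-/

namespace Vale.Agent.P021Pi

open MeasureTheory

/-- The integrand. -/
noncomputable def integrand (A B H : ℕ) (z : ℂ) : ℂ :=
  (z ^ 2 - 2 * z + 2) ^ A * ((z - 1) * (z - 2)) ^ B / (z ^ (H + 1) * (z ^ 2 - 2) ^ H)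

/-- Integral of the integrand along the straight segment from `u` to `v`. -/
noncomputable def seg (A B H : ℕ) (u v : ℂ) : ℂ :=
  ∫ t in (0 : ℝ)..1, integrand A B H (u + t * (v - u)) * (v - u)

/-- The integral from `2` to `1 + i` through the point `c`. -/
noncomputable def lam (A B H : ℕ) (c : ℂ) : ℂ :=
  seg A B H 2 c + seg A B H c (1 + Complex.I)

/-- Primes that can be removed from the denominator. -/
def Saved (A B H q : ℕ) : Prop :=
  q.Prime ∧ Odd q ∧ q ≤ H ∧ H + 4 * q < q * q ∧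
    Even (H / q) ∧ A / q + B / q = 2 * (H / q) + 1

/-- The majorant for the coefficient of `pi`. -/
noncomputable def rhoBound (A B H : ℕ) (R : ℝ) : ℝ :=
  (R ^ 2 + 2 * R + 2) ^ A * ((R + 1) * (R + 2)) ^ B / (R ^ H * (R ^ 2 - 2) ^ H)

/-- Statement of the arithmetic part. -/
def ArithmeticStatement : Prop :=
  ∀ A B H : ℕ, A + B = 2 * H → Even H → 8 * H ≤ 11 * A → ∀ s : Finset ℕ, (∀ q ∈ s, Saved A B H q) →
    (∏ q ∈ s, q) ∣ Nat.lcmUpto H ∧
    ∀ c : ℂ, 0 < c.im →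
      ∃ ρ T : ℤ, (∀ R : ℝ, 2 ≤ R → |(ρ : ℝ)| ≤ rhoBound A B H R) ∧
        4 * ((2 ^ 10 * (Nat.lcmUpto H / ∏ q ∈ s, q) : ℕ) : ℝ) * (lam A B H c).im
          = ((2 ^ 10 * (Nat.lcmUpto H / ∏ q ∈ s, q) : ℕ) : ℝ) * ρ * Real.pi + T

/-- Statement of the analytic part for exponents `(a, b, h)` with bounds `lo`, `hi`. -/
def AnalyticStatement (a b h : ℕ) (lo hi : ℝ) : Prop :=
  ∃ c : ℂ, 0 < c.im ∧
    (∀ᶠ n : ℕ in Filter.atTop, |(lam (a * n) (b * n) (h * n) c).im| ≤ Real.exp (hi * n)) ∧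
    (∀ᶠ n : ℕ in Filter.atTop, Real.exp (lo * n) ≤ |(lam (a * n) (b * n) (h * n) c).im| ∨
      Real.exp (lo * n) ≤ |(lam (a * (n + 1)) (b * (n + 1)) (h * (n + 1)) c).im|)

/-- Statement of the prime-saving part. -/
def SavingStatement (a b h : ℕ) (s₀ : ℝ) : Prop :=
  ∀ᶠ n : ℕ in Filter.atTop, ∃ s : Finset ℕ, (∀ q ∈ s, Saved (a * n) (b * n) (h * n) q) ∧
    Real.exp (s₀ * n) ≤ ((∏ q ∈ s, q : ℕ) : ℝ)

end Vale.Agent.P021Pi
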