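import Vale.Agent.P021Pi.Decomp

/-!
# Rational primitives (P021)
-/

namespace Vale.Agent.P021Pi

open Polynomial

/-- A rational function over `ℚ` with poles only at `0, ±√2`. -/
def RatFn (G : ℂ → ℂ) : Prop :=
  ∃ u v : ℕ, ∃ A : ℚ[X], ∀ z ∈ dom, G z = aeval z A / (z ^ u * (z ^ 2 - 2) ^ v)

/-- Statement of the `2`-adic part: the rational part of the linear form is almost `2`-integral. -/
def TwoAdicStatement : Prop :=
  ∀ A B H : ℕ, A + B = 2 * H → 8 * H ≤ 11 * A → ∀ (ρ : ℤ) (G : ℂ → ℂ), RatFn G →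
    (∀ z ∈ dom, HasDerivAt G (integrand A B H z - ρ / z) z) →
    2 ^ 5 * (G (1 - Complex.I) - G (1 + Complex.I)) ∈ locInt 2

end Vale.Agent.P021Pi
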