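import Vale.Agent.P021Pi.Residue

/-!
# Existence of a primitive with rational coefficients (P021)
-/

namespace Vale.Agent.P021Pi

open Polynomial

/-- `f` has a rational primitive up to residues. -/
def RatP (f : ℂ → ℂ) : Prop :=
  ∃ G : ℂ → ℂ, ∃ a b c : ℂ, RatFn G ∧ ∀ z ∈ dom, HasDerivAt G (f z - logPart a b c z) z

lemma ratFn_zero : RatFn (fun _ => 0) := ⟨0, 0, 0, fun z _ => by simp⟩

lemma ratFn_add {G K : ℂ → ℂ} (hG : RatFn G) (hK : RatFn K) : RatFn (fun z => G z + K z) := by
  obtain ⟨u, v, A, hA⟩ := hG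
  obtain ⟨u', v', A', hA'⟩ := hK
  refine ⟨u + u', v + v', A * (X ^ u' * (X ^ 2 - C 2) ^ v') + A' * (X ^ u * (X ^ 2 - C 2) ^ v),
    fun z hz => ?_⟩
  have h0 := hz.1
  have h2 := hz.2
  simp only [hA z hz, hA' z hz, map_add, map_mul, map_pow, map_sub, aeval_X, aeval_C, map_ofNat,
    pow_add]
  field_simp

lemma ratP_zero : RatP (fun _ => 0) :=
  ⟨fun _ => 0, 0, 0, 0, ratFn_zero, fun z _ => by simpa [logPart] using hasDerivAt_const z (0 : ℂ)⟩

lemma ratP_add {f g : ℂ → ℂ} (hf : RatP f) (hg : RatP g) : RatP (fun z => f z + g z) := by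
  obtain ⟨G, a, b, c, hG, hGd⟩ := hf
  obtain ⟨K, a', b', c', hK, hKd⟩ := hg
  refine ⟨fun z => G z + K z, a + a', b + b', c + c', ratFn_add hG hK, fun z hz => ?_⟩
  exact ((hGd z hz).add (hKd z hz)).congr_deriv (by unfold logPart; ring)

lemma ratP_smul {f : ℂ → ℂ} (r : ℚ) (hf : RatP f) : RatP (fun z => (r : ℂ) * f z) := by
  obtain ⟨G, a, b, c, ⟨u, v, A, hA⟩, hGd⟩ := hf
  refine ⟨fun z => (r : ℂ) * G z, r * a, r * b, r * c, ⟨u, v, C r * A, fun z hz => ?_⟩,
    fun z hz => ?_⟩
  · simp only [hA z hz, map_mul, aeval_C, eq_ratCast, mul_div_assoc]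
  · exact ((hGd z hz).const_mul (r : ℂ)).congr_deriv (by unfold logPart; ring)

lemma ratP_congr {f g : ℂ → ℂ} (hf : RatP f) (h : ∀ z ∈ dom, g z = f z) : RatP g := by
  obtain ⟨G, a, b, c, hG, hGd⟩ := hf
  exact ⟨G, a, b, c, hG, fun z hz => by rw [h z hz]; exact hGd z hz⟩

lemma ratP_pure (i : ℕ) : RatP (fun z => z ^ i) := by
  refine ⟨fun z => z ^ (i + 1) / ((i + 1 : ℕ) : ℂ), 0, 0, 0,
    ⟨0, 0, C ((1 : ℚ) / (i + 1 : ℕ)) * X ^ (i + 1), fun z _ => by simp [div_eq_inv_mul]⟩,
    fun z _ => ?_⟩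
  refine ((hasDerivAt_pow (i + 1) z).div_const _).congr_deriv ?_
  have : (((i + 1 : ℕ)) : ℂ) ≠ 0 := Nat.cast_ne_zero.mpr (by omega)
  simp only [logPart, Nat.add_sub_cancel]
  field_simp
  ring

lemma ratP_inv (j : ℕ) : RatP (fun z => 1 / z ^ (j + 1)) := by
  rcases Nat.eq_zero_or_pos j with rfl | hj
  · exact ⟨fun _ => 0, 1, 0, 0, ratFn_zero, fun z _ => (hasDerivAt_const z (0 : ℂ)).congr_deriv
      (by simp [logPart])⟩
  · obtain ⟨i, rfl⟩ : ∃ i, j = i + 1 := ⟨j - 1, by omega⟩
    refine ⟨fun z => -(1 / ((i + 1 : ℕ) : ℂ)) * (z ^ (i + 1))⁻¹, 0, 0, 0,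
      ⟨i + 1, 0, C (-((1 : ℚ) / (i + 1 : ℕ))), fun z _ => by simp [div_eq_inv_mul]; ring⟩,
      fun z hz => ?_⟩
    refine ((((hasDerivAt_pow (i + 1) z).fun_inv (pow_ne_zero _ hz.1))).const_mul _).congr_deriv ?_
    have : (((i + 1 : ℕ)) : ℂ) ≠ 0 := Nat.cast_ne_zero.mpr (by omega)
    have h0 := hz.1
    simp only [logPart, Nat.add_sub_cancel]
    field_simp
    ring

lemma ratP_mono_quad : ∀ h i : ℕ, RatP (fun z => z ^ i / (z ^ 2 - 2) ^ h) := by
  intro h
  induction h with
  | zero => exact fun i => ratP_congr (ratP_pure i) fun z _ => by simp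
  | succ h ih =>
    intro i
    induction i using Nat.strong_induction_on with
    | _ i ihi =>
      match i with
      | 0 =>
        rcases Nat.eq_zero_or_pos h with rfl | hh
        · refine ⟨fun _ => 0, 0, 1 / (2 * rtwo), -(1 / (2 * rtwo)), ratFn_zero,
            fun z hz => (hasDerivAt_const z (0 : ℂ)).congr_deriv ?_⟩
          obtain ⟨h1, h2⟩ := dom_sub hz
          have ha := rtwo_ne_zero
          simp only [logPart]
          rw [show z ^ 2 - 2 = (z - rtwo) * (z + rtwo) by rw [← rtwo_sq]; ring]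
          field_simp
          ring
        · have hP : RatP (fun z => (1 - 2 * (h : ℂ)) / (z ^ 2 - 2) ^ h
              - 4 * (h : ℂ) / (z ^ 2 - 2) ^ (h + 1)) := by
            refine ⟨fun z => z * ((z ^ 2 - 2) ^ h)⁻¹, 0, 0, 0,
              ⟨0, h, X, fun z _ => by simp [div_eq_mul_inv]⟩, fun z hz => ?_⟩
            obtain ⟨g, rfl⟩ : ∃ g, h = g + 1 := ⟨h - 1, by omega⟩
            refine ((hasDerivAt_id z).mul
              ((((hasDerivAt_pow 2 z).sub_const 2).fun_pow (g + 1)).fun_inv
                (pow_ne_zero _ hz.2))).congr_deriv ?_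
            have h2 := hz.2
            simp only [logPart, Nat.add_sub_cancel, id]
            field_simp
            push_cast
            ring
          have h4 : (4 * (h : ℚ)) ≠ 0 := by positivity
          refine ratP_congr (ratP_add (ratP_smul ((1 - 2 * (h : ℚ)) / (4 * h)) (ih 0))
            (ratP_smul (-(1 / (4 * (h : ℚ)))) hP)) fun z hz => ?_
          have h2 := hz.2
          have h5 : (h : ℂ) ≠ 0 := Nat.cast_ne_zero.mpr (by omega)
          push_cast
          field_simp
          ring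
      | 1 =>
        rcases Nat.eq_zero_or_pos h with rfl | hh
        · refine ⟨fun _ => 0, 0, 1 / 2, 1 / 2, ratFn_zero,
            fun z hz => (hasDerivAt_const z (0 : ℂ)).congr_deriv ?_⟩
          obtain ⟨h1, h2⟩ := dom_sub hz
          simp only [logPart]
          rw [show z ^ 2 - 2 = (z - rtwo) * (z + rtwo) by rw [← rtwo_sq]; ring]
          field_simp
          ring
        · obtain ⟨g, rfl⟩ : ∃ g, h = g + 1 := ⟨h - 1, by omega⟩
          refine ⟨fun z => -(1 / (2 * ((g + 1 : ℕ) : ℂ))) * ((z ^ 2 - 2) ^ (g + 1))⁻¹, 0, 0, 0,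
            ⟨0, g + 1, C (-(1 / (2 * ((g + 1 : ℕ) : ℚ)))),
              fun z _ => by simp [div_eq_mul_inv]⟩, fun z hz => ?_⟩
          refine (((((hasDerivAt_pow 2 z).sub_const 2).fun_pow (g + 1)).fun_inv
            (pow_ne_zero _ hz.2)).const_mul _).congr_deriv ?_
          have h2 := hz.2
          have : (((g + 1 : ℕ)) : ℂ) ≠ 0 := Nat.cast_ne_zero.mpr (by omega)
          simp only [logPart, Nat.add_sub_cancel]
          field_simp
          ring
      | j + 2 =>
        refine ratP_congr (ratP_add (ih j) (ratP_smul 2 (ihi j (by omega)))) fun z hz => ?_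
        have h2 := hz.2
        push_cast
        field_simp
        ring

lemma ratP_both : ∀ h m : ℕ, RatP (fun z => 1 / (z ^ m * (z ^ 2 - 2) ^ h)) := by
  intro h
  induction h with
  | zero =>
    intro m
    rcases Nat.eq_zero_or_pos m with rfl | hm
    · exact ratP_congr (ratP_pure 0) fun z _ => by simp
    · obtain ⟨j, rfl⟩ : ∃ j, m = j + 1 := ⟨m - 1, by omega⟩
      exact ratP_congr (ratP_inv j) fun z _ => by simp
  | succ h ih =>
    intro m
    induction m using Nat.strong_induction_on with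
    | _ m ihm =>
      match m with
      | 0 => exact ratP_congr (ratP_mono_quad (h + 1) 0) fun z _ => by simp
      | 1 =>
        refine ratP_congr (ratP_add (ratP_smul (1 / 2) (ratP_mono_quad (h + 1) 1))
          (ratP_smul (-(1 / 2)) (ih 1))) fun z hz => ?_
        have h0 := hz.1
        have h2 := hz.2
        push_cast
        field_simp
        ring
      | j + 2 =>
        refine ratP_congr (ratP_add (ratP_smul (1 / 2) (ihm j (by omega)))
          (ratP_smul (-(1 / 2)) (ih (j + 2)))) fun z hz => ?_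
        have h0 := hz.1
        have h2 := hz.2
        push_cast
        field_simp
        ring

lemma ratP_rat (N : ℤ[X]) (m h : ℕ) :
    RatP (fun z => aeval z N / (z ^ m * (z ^ 2 - 2) ^ h)) := by
  induction N using Polynomial.induction_on' with
  | add p q hp hq =>
    exact ratP_congr (ratP_add hp hq) fun z _ => by rw [map_add, add_div]
  | monomial i a =>
    rcases le_or_gt m i with hmi | hmi
    · refine ratP_congr (ratP_smul (a : ℚ) (ratP_mono_quad h (i - m))) fun z hz => ?_
      obtain ⟨e, rfl⟩ := Nat.exists_eq_add_of_le hmi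
      have h0 := hz.1
      have h2 := hz.2
      simp only [aeval_monomial, algebraMap_int_eq, eq_intCast, Nat.add_sub_cancel_left, pow_add]
      push_cast
      field_simp
    · refine ratP_congr (ratP_smul (a : ℚ) (ratP_both h (m - i))) fun z hz => ?_
      obtain ⟨e, rfl⟩ := Nat.exists_eq_add_of_le hmi.le
      have h0 := hz.1
      have h2 := hz.2
      simp only [aeval_monomial, algebraMap_int_eq, eq_intCast, Nat.add_sub_cancel_left, pow_add]
      push_cast
      field_simp

lemma ratFn_conj {G : ℂ → ℂ} (hG : RatFn G) {z : ℂ} (hz : z ∈ dom)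
    (hz' : (starRingEnd ℂ) z ∈ dom) : G ((starRingEnd ℂ) z) = (starRingEnd ℂ) (G z) := by
  obtain ⟨u, v, A, hA⟩ := hG
  rw [hA _ hz, hA _ hz', map_div₀, map_mul, map_pow, map_pow, map_sub, map_pow, map_ofNat]
  congr 1
  exact (aeval_algHom_apply ((Complex.conjAe.restrictScalars ℚ).toAlgHom) z A)

lemma ratFn_value {G : ℂ → ℂ} (hG : RatFn G) :
    ∃ r s : ℚ, G (1 + Complex.I) = (r : ℂ) + (s : ℂ) * Complex.I := by
  obtain ⟨u, v, A, hA⟩ := hG
  let Gq : Subfield ℂ :=
    { carrier := {x | ∃ r s : ℚ, x = (r : ℂ) + (s : ℂ) * Complex.I}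
      zero_mem' := ⟨0, 0, by simp⟩
      one_mem' := ⟨1, 0, by simp⟩
      add_mem' := by
        rintro _ _ ⟨r, s, rfl⟩ ⟨r', s', rfl⟩
        exact ⟨r + r', s + s', by push_cast; ring⟩
      mul_mem' := by
        rintro _ _ ⟨r, s, rfl⟩ ⟨r', s', rfl⟩
        refine ⟨r * r' - s * s', r * s' + s * r', ?_⟩
        push_cast
        linear_combination ((s : ℂ) * s') * Complex.I_sq
      neg_mem' := by
        rintro _ ⟨r, s, rfl⟩
        exact ⟨-r, -s, by push_cast; ring⟩
      inv_mem' := by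
        rintro _ ⟨r, s, rfl⟩
        rcases eq_or_ne (r * r + s * s) 0 with h | h
        · have hr : r = 0 := by nlinarith [mul_self_nonneg r, mul_self_nonneg s]
          have hs : s = 0 := by nlinarith [mul_self_nonneg r, mul_self_nonneg s]
          exact ⟨0, 0, by simp [hr, hs]⟩
        · refine ⟨r / (r * r + s * s), -s / (r * r + s * s), inv_eq_of_mul_eq_one_right ?_⟩
          have h' : ((r : ℂ) * r + (s : ℂ) * s) ≠ 0 := by exact_mod_cast h
          push_cast
          have e : ((r : ℂ) + s * Complex.I) * ((r : ℂ) - s * Complex.I)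
              = (r : ℂ) * r + (s : ℂ) * s := by
            linear_combination (-((s : ℂ) * s)) * Complex.I_sq
          rw [show ((r : ℂ) + s * Complex.I) * ((r : ℂ) / ((r : ℂ) * r + (s : ℂ) * s)
              + -(s : ℂ) / ((r : ℂ) * r + (s : ℂ) * s) * Complex.I)
            = ((r : ℂ) + s * Complex.I) * ((r : ℂ) - s * Complex.I)
              / ((r : ℂ) * r + (s : ℂ) * s) by ring, e, div_self h'] }
  have hI : 1 + Complex.I ∈ Gq := ⟨1, 1, by simp⟩
  have hA' : aeval (1 + Complex.I) A ∈ Gq := by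
    rw [aeval_eq_sum_range]
    refine sum_mem fun i _ => ?_
    rw [Algebra.smul_def, eq_ratCast]
    exact mul_mem ⟨A.coeff i, 0, by simp⟩ (pow_mem hI i)
  rw [hA _ (dom_of_im (by simp))]
  exact div_mem hA' (mul_mem (pow_mem hI u) (pow_mem (sub_mem (pow_mem hI 2) ⟨2, 0, by simp⟩) v))

end Vale.Agent.P021Pi
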