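import Vale.Agent.P021Pi.RatFn

/-!
# Residues, antisymmetry and the segment integrals (P021)
-/

namespace Vale.Agent.P021Pi

open Complex Metric

lemma norm_rtwo : ‖rtwo‖ = Real.sqrt 2 := by
  rw [rtwo, Complex.norm_real, Real.norm_of_nonneg (Real.sqrt_nonneg 2)]

lemma sqrt_two_bounds : (1.4 : ℝ) < Real.sqrt 2 ∧ Real.sqrt 2 < 1.5 :=
  ⟨Real.lt_sqrt_of_sq_lt (by norm_num), (Real.sqrt_lt' (by norm_num)).mpr (by norm_num)⟩

lemma mem_dom_of_dist {z : ℂ} (h0 : z ≠ 0) (h1 : z ≠ rtwo) (h2 : z ≠ -rtwo) : z ∈ dom := by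
  refine ⟨h0, fun h => ?_⟩
  have h3 : (z - rtwo) * (z + rtwo) = 0 := by rw [← h, ← rtwo_sq]; ring
  rcases mul_eq_zero.mp h3 with h4 | h4
  · exact h1 (sub_eq_zero.mp h4)
  · exact h2 (eq_neg_of_add_eq_zero_left h4)

/-- Circle integral of a simple pole. -/
lemma circle_simple (p q : ℂ) (r : ℂ) (h : q = p ∨ 1 ≤ ‖q - p‖) :
    (∮ z in C(p, 1 / 2), r / (z - q)) = if q = p then 2 * Real.pi * I * r else 0 := by
  simp only [div_eq_mul_inv, circleIntegral.integral_const_mul]
  split_ifs with hqp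
  · subst hqp
    rw [circleIntegral.integral_sub_inv_of_mem_ball (mem_ball_self (by norm_num))]
    ring
  · have h1 : 1 ≤ ‖q - p‖ := h.resolve_left hqp
    rw [DiffContOnCl.circleIntegral_eq_zero (by norm_num) ?_, mul_zero]
    refine DifferentiableOn.diffContOnCl fun z hz => DifferentiableAt.differentiableWithinAt ?_
    refine (differentiableAt_id.sub_const q).inv ?_
    intro hzq
    have hzq' : z = q := sub_eq_zero.mp hzq
    have := closure_ball_subset_closedBall hz
    rw [hzq', mem_closedBall, dist_eq_norm] at this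
    norm_num at this
    linarith

lemma logPart_unique {G : ℂ → ℂ} {a b c : ℂ}
    (h : ∀ z ∈ dom, HasDerivAt G (logPart a b c z) z) : a = 0 ∧ b = 0 ∧ c = 0 := by
  obtain ⟨s1, s2⟩ := sqrt_two_bounds
  have hn := norm_rtwo
  have hn2 : ‖rtwo + rtwo‖ = 2 * Real.sqrt 2 := by
    rw [← two_mul, norm_mul, hn]; simp
  have hn3 : ‖-rtwo + -rtwo‖ = 2 * Real.sqrt 2 := by rw [← neg_add, norm_neg, hn2]
  have hpi : (2 * Real.pi * I : ℂ) ≠ 0 := by simp [Real.pi_ne_zero]
  have key : ∀ p : ℂ, (p = 0 ∨ p = rtwo ∨ p = -rtwo) →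
      (if 0 = p then 2 * Real.pi * I * a else 0) + (if rtwo = p then 2 * Real.pi * I * b else 0)
        + (if -rtwo = p then 2 * Real.pi * I * c else 0) = 0 := by
    intro p hp
    have far : ∀ q : ℂ, (q = 0 ∨ q = rtwo ∨ q = -rtwo) → q = p ∨ 1 ≤ ‖q - p‖ := by
      intro q hq
      rcases hp with rfl | rfl | rfl <;> rcases hq with rfl | rfl | rfl <;>
        first
        | exact Or.inl rfl
        | (right; simp [sub_eq_add_neg, hn, hn2, hn3] <;> linarith)
    have hmem : ∀ z ∈ sphere p (1 / 2), z ∈ dom := by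
      intro z hz
      rw [mem_sphere, dist_eq_norm] at hz
      have hne : ∀ q : ℂ, (q = 0 ∨ q = rtwo ∨ q = -rtwo) → z ≠ q := by
        rintro q hq rfl
        rcases far z hq with rfl | h1
        · simp at hz
        · linarith
      exact mem_dom_of_dist (hne 0 (by simp)) (hne rtwo (by simp)) (hne (-rtwo) (by simp))
    have hint := circleIntegral.integral_eq_zero_of_hasDerivWithinAt (f := G)
      (f' := logPart a b c) (c := p) (R := 1 / 2) (by norm_num)
      fun z hz => (h z (hmem z hz)).hasDerivWithinAt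
    have hci : ∀ (q r : ℂ), (q = 0 ∨ q = rtwo ∨ q = -rtwo) →
        CircleIntegrable (fun z => r / (z - q)) p (1 / 2) := by
      intro q r hq
      refine ContinuousOn.circleIntegrable (by norm_num) fun z hz => ?_
      refine ContinuousAt.continuousWithinAt ?_
      refine continuousAt_const.div (continuousAt_id.sub continuousAt_const) ?_
      have hd := hmem z hz
      rcases hq with rfl | rfl | rfl
      · simpa using hd.1
      · exact (dom_sub hd).1
      · simpa using (dom_sub hd).2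
    have e : logPart a b c = fun z => a / (z - 0) + b / (z - rtwo) + c / (z - -rtwo) := by
      funext z; simp [logPart]
    rw [e, circleIntegral.integral_add (f := fun z => a / (z - 0) + b / (z - rtwo))
      (g := fun z => c / (z - -rtwo)) ((hci 0 a (by simp)).add (hci rtwo b (by simp)))
      (hci (-rtwo) c (by simp)), circleIntegral.integral_add (hci 0 a (by simp)) (hci rtwo b (by simp)),
      circle_simple p 0 a (far 0 (by simp)), circle_simple p rtwo b (far rtwo (by simp)),
      circle_simple p (-rtwo) c (far (-rtwo) (by simp))] at hint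
    exact hint
  have h2 : rtwo ≠ -rtwo := by
    rw [ne_eq, eq_neg_iff_add_eq_zero, ← two_mul]
    simp [rtwo_ne_zero]
  refine ⟨?_, ?_, ?_⟩
  · have := key 0 (by simp)
    simpa [rtwo_ne_zero, hpi, Real.pi_ne_zero] using this
  · have := key rtwo (by simp)
    simpa [rtwo_ne_zero, Ne.symm rtwo_ne_zero, Ne.symm h2, hpi, Real.pi_ne_zero] using this
  · have := key (-rtwo) (by simp)
    simpa [rtwo_ne_zero, Ne.symm rtwo_ne_zero, h2, hpi, Real.pi_ne_zero] using this

lemma inv_mem_dom {z : ℂ} (hz : z ∈ dom) : 2 / z ∈ dom := by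
  refine ⟨div_ne_zero two_ne_zero hz.1, ?_⟩
  have := hz.1
  rw [show (2 / z) ^ 2 - 2 = -2 * (z ^ 2 - 2) / z ^ 2 by field_simp; ring]
  exact div_ne_zero (mul_ne_zero (by norm_num) hz.2) (pow_ne_zero _ hz.1)

lemma integrand_inv (A B H : ℕ) (hAB : A + B = 2 * H) (hH : Even H) {z : ℂ} (hz : z ∈ dom) :
    integrand A B H (2 / z) * (-(2 / z ^ 2)) = -integrand A B H z := by
  have h0 := hz.1
  have h2 := hz.2
  have e1 : (2 / z) ^ 2 - 2 * (2 / z) + 2 = 2 * (z ^ 2 - 2 * z + 2) / z ^ 2 := by field_simp; ring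
  have e2 : (2 / z - 1) * (2 / z - 2) = 2 * ((z - 1) * (z - 2)) / z ^ 2 := by field_simp; ring
  have e3 : (2 / z) ^ 2 - 2 = (-1) * 2 * (z ^ 2 - 2) / z ^ 2 := by field_simp; ring
  have e4 : (2 : ℂ) ^ A * 2 ^ B = 2 ^ H * 2 ^ H := by rw [← pow_add, ← pow_add, hAB, two_mul]
  have e5 : (z ^ 2) ^ A * (z ^ 2) ^ B = z ^ H * z ^ H * z ^ H * z ^ H := by
    rw [← pow_add, hAB, ← pow_mul, ← pow_add, ← pow_add, ← pow_add]; congr 1; omega
  have hP : ∀ x y : ℂ, (2 * x / z ^ 2) ^ A * (2 * y / z ^ 2) ^ B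
      = 2 ^ H * 2 ^ H * (x ^ A * y ^ B) / (z ^ H * z ^ H * z ^ H * z ^ H) := by
    intro x y
    rw [div_pow, div_pow, mul_pow, mul_pow, div_mul_div_comm, e5, ← e4]
    ring
  have hD : ∀ w : ℂ, ((-1) * 2 * w / z ^ 2) ^ H = 2 ^ H * w ^ H / (z ^ H * z ^ H) := by
    intro w
    rw [div_pow, mul_pow, mul_pow, hH.neg_one_pow, one_mul, ← pow_mul, two_mul, pow_add]
  rw [integrand, integrand, e1, e2, e3, hP, hD, div_pow, pow_succ (2 : ℂ), pow_succ z]
  field_simp
  ring

/-- By antisymmetry the residues at `±√2` vanish. -/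
lemma residues_pm (A B H : ℕ) (hAB : A + B = 2 * H) (hH : Even H) {G : ℂ → ℂ} {a b c : ℂ}
    (hG : ∀ z ∈ dom, HasDerivAt G (integrand A B H z - logPart a b c z) z) : b = 0 ∧ c = 0 := by
  have h : ∀ z ∈ dom, HasDerivAt (fun z => G z + G (2 / z))
      (logPart (b + c) (-(2 * b)) (-(2 * c)) z) z := by
    intro z hz
    have h0 := hz.1
    obtain ⟨h1, h2⟩ := dom_sub hz
    have hd : HasDerivAt (fun z : ℂ => 2 / z) (-(2 / z ^ 2)) z := by
      have := (hasDerivAt_inv h0).const_mul 2
      simpa [div_eq_mul_inv] using this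
    refine ((hG z hz).add ((hG _ (inv_mem_dom hz)).comp z hd)).congr_deriv ?_
    rw [sub_mul, integrand_inv A B H hAB hH hz]
    obtain ⟨g1, g2⟩ := dom_sub (inv_mem_dom hz)
    have g1' : 2 - z * rtwo ≠ 0 := by
      intro hh
      apply g1
      field_simp
      linear_combination hh
    have g2' : 2 + z * rtwo ≠ 0 := by
      intro hh
      apply g2
      field_simp
      linear_combination hh
    have k0 : a / (2 / z) * -(2 / z ^ 2) = -(a / z) := by field_simp
    have k1 : b / (2 / z - rtwo) * -(2 / z ^ 2) = -(b / z) + b / (z - rtwo) := by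
      field_simp
      linear_combination (b * z) * rtwo_sq
    have k2 : c / (2 / z + rtwo) * -(2 / z ^ 2) = -(c / z) + c / (z + rtwo) := by
      field_simp
      linear_combination (c * z) * rtwo_sq
    simp only [logPart, add_mul, k0, k1, k2]
    field_simp
    ring
  obtain ⟨-, h1, h2⟩ := logPart_unique h
  exact ⟨by simpa using h1, by simpa using h2⟩

/-- The bound on the residue at the origin. -/
lemma residue_bound (A B H : ℕ) {G : ℂ → ℂ} {ρ : ℂ}
    (hG : ∀ z ∈ dom, HasDerivAt G (integrand A B H z - ρ / z) z) {R : ℝ} (hR : 2 ≤ R) :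
    ‖ρ‖ ≤ rhoBound A B H R := by
  have hR0 : 0 < R := by linarith
  have hR2 : 0 < R ^ 2 - 2 := by nlinarith
  have hdom : ∀ z ∈ sphere (0 : ℂ) R, z ∈ dom := by
    intro z hz
    rw [mem_sphere_zero_iff_norm] at hz
    refine mem_dom_of_dist ?_ ?_ ?_ <;> rintro rfl <;>
      simp [norm_rtwo] at hz <;> linarith [sqrt_two_bounds.2]
  have hint := circleIntegral.integral_eq_zero_of_hasDerivWithinAt (f := G)
    (f' := fun z => integrand A B H z - ρ / z) (c := 0) (R := R) hR0.le
    fun z hz => (hG z (hdom z hz)).hasDerivWithinAt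
  have hc1 : CircleIntegrable (integrand A B H) 0 R := by
    refine ContinuousOn.circleIntegrable hR0.le fun z hz => ContinuousAt.continuousWithinAt ?_
    have hd := hdom z hz
    unfold integrand
    refine ContinuousAt.div (by fun_prop) (by fun_prop) ?_
    exact mul_ne_zero (pow_ne_zero _ hd.1) (pow_ne_zero _ hd.2)
  have hc2 : CircleIntegrable (fun z => ρ / z) 0 R := by
    refine ContinuousOn.circleIntegrable hR0.le fun z hz => ContinuousAt.continuousWithinAt ?_
    exact continuousAt_const.div continuousAt_id (hdom z hz).1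
  rw [circleIntegral.integral_sub hc1 hc2, sub_eq_zero] at hint
  have hρ : (∮ z in C(0, R), ρ / z) = 2 * Real.pi * I * ρ := by
    simp only [div_eq_mul_inv, circleIntegral.integral_const_mul]
    have := circleIntegral.integral_sub_inv_of_mem_ball (c := 0) (w := 0) (R := R)
      (mem_ball_self hR0)
    simp only [sub_zero] at this
    rw [this]; ring
  have hb : ∀ z ∈ sphere (0 : ℂ) R, ‖integrand A B H z‖ ≤ rhoBound A B H R / R := by
    intro z hz
    rw [mem_sphere_zero_iff_norm] at hz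
    have b1 : ‖z ^ 2 - 2 * z + 2‖ ≤ R ^ 2 + 2 * R + 2 := by
      refine (norm_add_le _ _).trans ?_
      refine (add_le_add (norm_sub_le _ _) le_rfl).trans ?_
      simp [hz]
    have b2 : ‖z - 1‖ ≤ R + 1 := by simpa [hz] using norm_sub_le z 1
    have b3 : ‖z - 2‖ ≤ R + 2 := by simpa [hz] using norm_sub_le z 2
    have b4 : R ^ 2 - 2 ≤ ‖z ^ 2 - 2‖ := by
      have := norm_sub_norm_le (z ^ 2) (2 : ℂ)
      rwa [_root_.norm_pow, hz, Complex.norm_two] at this
    rw [integrand, rhoBound, norm_div, norm_mul, norm_mul, norm_pow, norm_pow, norm_pow, norm_pow,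
      hz, norm_mul, div_div, show R ^ H * (R ^ 2 - 2) ^ H * R = R ^ (H + 1) * (R ^ 2 - 2) ^ H by ring]
    gcongr
  have hnorm := circleIntegral.norm_integral_le_of_norm_le_const hR0.le hb
  rw [hint, hρ, norm_mul] at hnorm
  have h2 : ‖(2 * Real.pi * I : ℂ)‖ = 2 * Real.pi := by
    simp [abs_of_pos Real.pi_pos]
  rw [h2, mul_assoc (2 * Real.pi) R, mul_div_cancel₀ _ hR0.ne'] at hnorm
  exact le_of_mul_le_mul_left hnorm (by positivity)

/-- Fundamental theorem of calculus along a segment. -/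
lemma segment_ftc {f F : ℂ → ℂ} (u v : ℂ)
    (hF : ∀ t ∈ Set.Icc (0 : ℝ) 1, HasDerivAt F (f (u + t * (v - u))) (u + t * (v - u)))
    (hf : ContinuousOn (fun t : ℝ => f (u + t * (v - u)) * (v - u)) (Set.Icc (0 : ℝ) 1)) :
    (∫ t in (0 : ℝ)..1, f (u + t * (v - u)) * (v - u)) = F v - F u := by
  have h : ∀ t ∈ Set.uIcc (0 : ℝ) 1, HasDerivAt (fun t : ℝ => F (u + t * (v - u)))
      (f (u + t * (v - u)) * (v - u)) t := by
    intro t ht
    rw [Set.uIcc_of_le zero_le_one] at ht
    have h1 : HasDerivAt (fun w : ℂ => u + w * (v - u)) (v - u) (t : ℂ) := by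
      simpa using ((hasDerivAt_id (t : ℂ)).mul_const (v - u)).const_add u
    exact ((hF t ht).comp (t : ℂ) h1).comp_ofReal
  rw [intervalIntegral.integral_eq_sub_of_hasDerivAt h (hf.intervalIntegrable_of_Icc zero_le_one)]
  simp

/-- Two primitives of the same function have the same increments along a segment in the domain. -/
lemma primitive_increment {f G K : ℂ → ℂ} (u v : ℂ)
    (hmem : ∀ t ∈ Set.Icc (0 : ℝ) 1, u + t * (v - u) ∈ dom)
    (hG : ∀ z ∈ dom, HasDerivAt G (f z) z) (hK : ∀ z ∈ dom, HasDerivAt K (f z) z) :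
    G v - G u = K v - K u := by
  have h := segment_ftc (f := fun _ => 0) (F := fun z => G z - K z) u v
    (fun t ht => by simpa using (hG _ (hmem t ht)).fun_sub (hK _ (hmem t ht)))
    (by simpa using continuousOn_const)
  simp only [zero_mul, intervalIntegral.integral_zero] at h
  linear_combination -h

/-- Equal increments between `1 - i` and `1 + i`. -/
lemma primitive_diff {f G K : ℂ → ℂ}
    (hG : ∀ z ∈ dom, HasDerivAt G (f z) z) (hK : ∀ z ∈ dom, HasDerivAt K (f z) z) :
    G (1 + I) - G (1 - I) = K (1 + I) - K (1 - I) := by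
  have hm : ∀ e : ℝ, e ≠ 0 → ∀ t ∈ Set.Icc (0 : ℝ) 1,
      (2 : ℂ) + t * ((1 + e * I) - 2) ∈ dom := by
    intro e he t _
    rcases eq_or_ne t 0 with rfl | ht0
    · simpa using two_mem_dom
    · exact dom_of_im (by simp [he, ht0])
  have h1 := primitive_increment (2 : ℂ) (1 + ((1 : ℝ) : ℂ) * I) (hm 1 one_ne_zero) hG hK
  have h2 := primitive_increment (2 : ℂ) (1 + ((-1 : ℝ) : ℂ) * I) (hm (-1) (by norm_num)) hG hK
  simp only [Complex.ofReal_one, one_mul, Complex.ofReal_neg, neg_mul, ← sub_eq_add_neg] at h1 h2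
  linear_combination h1 - h2

/-- The path integral in terms of a primitive. -/
lemma lam_eq (A B H : ℕ) {G : ℂ → ℂ} {ρ : ℂ}
    (hG : ∀ z ∈ dom, HasDerivAt G (integrand A B H z - ρ / z) z) {c : ℂ} (hc : 0 < c.im) :
    lam A B H c = G (1 + I) - G 2 + ρ * (log (1 + I) - log 2) := by
  have key : ∀ u v : ℂ, (∀ t ∈ Set.Icc (0 : ℝ) 1,
      u + t * (v - u) ∈ dom ∧ u + t * (v - u) ∈ slitPlane) →
      seg A B H u v = (G v + ρ * log v) - (G u + ρ * log u) := by
    intro u v hm
    refine segment_ftc (F := fun z => G z + ρ * log z) u v (fun t ht => ?_) ?_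
    · refine ((hG _ (hm t ht).1).add ((hasDerivAt_log (hm t ht).2).const_mul ρ)).congr_deriv ?_
      ring
    · intro t ht
      refine ContinuousAt.continuousWithinAt ?_
      have hd := (hm t ht).1
      unfold integrand
      refine ContinuousAt.mul ?_ continuousAt_const
      refine ContinuousAt.div (by fun_prop) (by fun_prop) ?_
      exact mul_ne_zero (pow_ne_zero _ hd.1) (pow_ne_zero _ hd.2)
  rw [lam, key 2 c, key c (1 + I)]
  · ring
  · intro t ht
    have him : 0 < (c + t * ((1 + I) - c)).im := by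
      simp only [add_im, mul_im, ofReal_re, ofReal_im, zero_mul, add_zero, sub_im, one_im, I_im]
      rcases eq_or_lt_of_le ht.2 with h1 | h1
      · rw [h1]; norm_num
      · nlinarith [ht.1, mul_pos (sub_pos.mpr h1) hc]
    exact ⟨dom_of_im him.ne', Complex.mem_slitPlane_iff.mpr (Or.inr him.ne')⟩
  · intro t ht
    rcases eq_or_lt_of_le ht.1 with h0 | h0
    · subst h0
      simp only [Complex.ofReal_zero, zero_mul, add_zero]
      exact ⟨two_mem_dom, Complex.mem_slitPlane_iff.mpr (Or.inl (by norm_num))⟩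
    · have him : 0 < ((2 : ℂ) + t * (c - 2)).im := by simp; positivity
      exact ⟨dom_of_im him.ne', Complex.mem_slitPlane_iff.mpr (Or.inr him.ne')⟩

end Vale.Agent.P021Pi
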