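import Vale.Agent.P021Pi.Defs

/-!
# Rings of integers localized away from a prime, inside the complex numbers (P021)
-/

namespace Vale.Agent.P021Pi

/-- `x` becomes an algebraic integer after multiplication by a natural number coprime to `m`. -/
def locInt (m : ℕ) : Subring ℂ where
  carrier := {x | ∃ k : ℕ, k.Coprime m ∧ IsIntegral ℤ ((k : ℂ) * x)}
  zero_mem' := ⟨1, Nat.coprime_one_left m, by simpa using isIntegral_zero⟩
  one_mem' := ⟨1, Nat.coprime_one_left m, by simpa using isIntegral_one⟩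
  add_mem' := by
    rintro x y ⟨k, hk, hx⟩ ⟨l, hl, hy⟩
    refine ⟨k * l, hk.mul_left hl, ?_⟩
    have h := ((isIntegral_algebraMap (R := ℤ) (A := ℂ) (x := (l : ℤ))).mul hx).add
      ((isIntegral_algebraMap (R := ℤ) (A := ℂ) (x := (k : ℤ))).mul hy)
    rw [show ((k * l : ℕ) : ℂ) * (x + y)
      = algebraMap ℤ ℂ (l : ℤ) * ((k : ℂ) * x) + algebraMap ℤ ℂ (k : ℤ) * ((l : ℂ) * y) by
        simp only [algebraMap_int_eq, eq_intCast, Int.cast_natCast, Nat.cast_mul]; ring]
    exact h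
  mul_mem' := by
    rintro x y ⟨k, hk, hx⟩ ⟨l, hl, hy⟩
    refine ⟨k * l, hk.mul_left hl, ?_⟩
    rw [show ((k * l : ℕ) : ℂ) * (x * y) = ((k : ℂ) * x) * ((l : ℂ) * y) by push_cast; ring]
    exact hx.mul hy
  neg_mem' := by
    rintro x ⟨k, hk, hx⟩
    exact ⟨k, hk, by simpa using hx.neg⟩

lemma locInt_of_isIntegral {m : ℕ} {x : ℂ} (hx : IsIntegral ℤ x) : x ∈ locInt m :=
  ⟨1, Nat.coprime_one_left m, by simpa using hx⟩

lemma locInt_inv_natCast {m k : ℕ} (hk : k.Coprime m) : ((k : ℂ))⁻¹ ∈ locInt m := by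
  rcases eq_or_ne k 0 with rfl | hk0
  · simp
  refine ⟨k, hk, ?_⟩
  rw [mul_inv_cancel₀ (Nat.cast_ne_zero.mpr hk0)]
  exact isIntegral_one

lemma locInt_I (m : ℕ) : Complex.I ∈ locInt m := by
  refine locInt_of_isIntegral (IsIntegral.of_pow (n := 2) (by norm_num) ?_)
  rw [Complex.I_sq]
  exact isIntegral_one.neg

/-- The complex number `√2`. -/
noncomputable def rtwo : ℂ := (Real.sqrt 2 : ℝ)

lemma rtwo_sq : rtwo ^ 2 = 2 := by
  rw [rtwo, ← Complex.ofReal_pow, Real.sq_sqrt (by norm_num)]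
  norm_num

lemma rtwo_ne_zero : rtwo ≠ 0 := fun h => by
  have := rtwo_sq
  rw [h] at this
  norm_num at this

lemma locInt_rtwo (m : ℕ) : rtwo ∈ locInt m := by
  refine locInt_of_isIntegral (IsIntegral.of_pow (n := 2) (by norm_num) ?_)
  rw [rtwo_sq]
  simpa using (isIntegral_algebraMap (R := ℤ) (A := ℂ) (x := 2))

lemma locInt_two_inv {m : ℕ} (hm : Odd m) : ((2 : ℂ))⁻¹ ∈ locInt m := by
  simpa using locInt_inv_natCast (k := 2) (Nat.coprime_two_left.mpr hm)

/-- A rational number in `locInt q` has denominator prime to `q`. -/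
lemma locInt_rat {q : ℕ} {r : ℚ} (h : (r : ℂ) ∈ locInt q) : r.den.Coprime q := by
  obtain ⟨k, hk, hint⟩ := h
  have h1 : IsIntegral ℤ ((k : ℚ) * r) := by
    rw [← isIntegral_algebraMap_iff (A := ℚ) (B := ℂ) (algebraMap ℚ ℂ).injective]
    simpa using hint
  obtain ⟨z, hz⟩ := IsIntegrallyClosed.isIntegral_iff.mp h1
  have hden : r.den ∣ k := by
    have h2 : (k : ℤ) * r.num = z * r.den := by
      have h3 : ((k : ℚ) * r) * r.den = (z : ℚ) * r.den := by rw [← hz]; simp
      rw [mul_assoc, Rat.mul_den_eq_num] at h3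
      exact_mod_cast h3
    have h4 : (r.den : ℤ) ∣ r.num * k := ⟨z, by linear_combination h2⟩
    have h5 : IsCoprime (r.den : ℤ) r.num :=
      (Int.isCoprime_iff_nat_coprime.mpr (by simpa [Nat.Coprime] using r.reduced.symm))
    exact_mod_cast h5.dvd_of_dvd_mul_left h4
  exact Nat.Coprime.coprime_dvd_left hden hk

end Vale.Agent.P021Pi
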