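import Vale.Agent.P021Pi.RatPrim

/-!
# Good points and the primes saved from the denominator (P021)
-/

namespace Vale.Agent.P021Pi

open Polynomial

lemma goodPts_pm {m : ℕ} (hm : Odd m) :
    GoodPts (locInt m) {1 + Complex.I, 1 - Complex.I} := by
  set O := locInt m
  have h2 := locInt_two_inv hm
  have hI := locInt_I m
  have ha := locInt_rtwo m
  have h8 : ((8 : ℂ))⁻¹ ∈ O := by
    rw [show (8 : ℂ)⁻¹ = 2⁻¹ * 2⁻¹ * 2⁻¹ by norm_num]
    exact O.mul_mem (O.mul_mem h2 h2) h2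
  have key : ∀ s : ℂ, (s = Complex.I ∨ s = -Complex.I) → (1 + s ∈ O) ∧ (1 + s)⁻¹ ∈ O ∧
      (1 + s - rtwo)⁻¹ ∈ O ∧ (1 + s + rtwo)⁻¹ ∈ O := by
    intro s hs
    have hsO : s ∈ O := by rcases hs with rfl | rfl; exacts [hI, O.neg_mem hI]
    have hsq : s ^ 2 = -1 := by rcases hs with rfl | rfl <;> simp
    have h4 : (4 : ℂ) ∈ O := natCast_mem O 4
    have hx : ∀ a : ℂ, a ∈ O → a ^ 2 = 2 → (1 + s - a)⁻¹ ∈ O := by
      intro a haO hasq
      have e : (1 + s - a) * ((1 - a - s) * (4 + 2 * a) * 8⁻¹) = 1 := by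
        linear_combination (-(4 + 2 * a) * 8⁻¹) * hsq + ((4 + 2 * a) * 8⁻¹ - 4 * 8⁻¹) * hasq
      rw [inv_eq_of_mul_eq_one_right e]
      exact O.mul_mem (O.mul_mem (O.sub_mem (O.sub_mem O.one_mem haO) hsO)
        (O.add_mem h4 (O.mul_mem (natCast_mem O 2) haO))) h8
    refine ⟨O.add_mem O.one_mem hsO, ?_, hx rtwo ha rtwo_sq, ?_⟩
    · have e : (1 + s) * ((1 - s) * 2⁻¹) = 1 := by linear_combination (-(2 : ℂ)⁻¹) * hsq
      rw [inv_eq_of_mul_eq_one_right e]
      exact O.mul_mem (O.sub_mem O.one_mem hsO) h2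
    · have := hx (-rtwo) (O.neg_mem ha) (by rw [neg_sq, rtwo_sq])
      rwa [sub_neg_eq_add] at this
  intro p hp
  rcases hp with rfl | rfl
  · exact key _ (Or.inl rfl)
  · simpa [sub_eq_add_neg] using key _ (Or.inr rfl)

lemma rtwo_inv_mem {m : ℕ} (hm : Odd m) :
    rtwo⁻¹ ∈ locInt m ∧ (2 * rtwo)⁻¹ ∈ locInt m := by
  have h : rtwo⁻¹ = rtwo * 2⁻¹ := inv_eq_of_mul_eq_one_right (by
    linear_combination (2 : ℂ)⁻¹ * rtwo_sq)
  have h1 : rtwo⁻¹ ∈ locInt m := h ▸ (locInt m).mul_mem (locInt_rtwo m) (locInt_two_inv hm)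
  exact ⟨h1, by rw [mul_inv]; exact (locInt m).mul_mem (locInt_two_inv hm) h1⟩

/-- The middle coefficient of an antisymmetric polynomial vanishes. -/
lemma middle_coeff (a b r : ℕ) (hr : Odd r) :
    ((X ^ 2 - C 2 * X + C 2) ^ a * ((X - C 1) * (X - C 2)) ^ b * (X ^ 2 - C 2) ^ r : ℤ[X]).coeff
      (a + b + r) = 0 := by
  set P : ℤ[X] := (X ^ 2 - C 2 * X + C 2) ^ a * ((X - C 1) * (X - C 2)) ^ b * (X ^ 2 - C 2) ^ r
    with hP
  set M := a + b + r with hM
  have hdeg : P.natDegree < 2 * M + 1 := by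
    have e1 : (X ^ 2 - C 2 * X + C 2 : ℤ[X]).natDegree ≤ 2 := by compute_degree
    have e2 : ((X - C 1) * (X - C 2) : ℤ[X]).natDegree ≤ 2 := by compute_degree
    have e3 : (X ^ 2 - C 2 : ℤ[X]).natDegree ≤ 2 := by compute_degree
    rw [hM]
    have := (natDegree_mul_le.trans (Nat.add_le_add (natDegree_mul_le.trans (Nat.add_le_add
      (natDegree_pow_le_of_le a e1) (natDegree_pow_le_of_le b e2))) (natDegree_pow_le_of_le r e3)) :
      P.natDegree ≤ a * 2 + b * 2 + r * 2)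
    rw [← hP] at this
    omega
  set Q : ℤ[X] := ∑ i ∈ Finset.range (2 * M + 1), C (2 ^ i * P.coeff i) * X ^ (2 * M - i) with hQ
  have hzero : (Q + C (2 ^ M) * P).map (Int.castRingHom ℂ) = 0 := by
    refine eq_zero_of_infinite_isRoot _ (Set.Infinite.mono ?_
      (Set.Finite.infinite_compl (Set.finite_singleton (0 : ℂ))))
    intro z hz
    have hz0 : z ≠ 0 := hz
    rw [Set.mem_setOf_eq, IsRoot, eval_map, ← algebraMap_int_eq, ← aeval_def, map_add, map_mul,
      aeval_C]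
    have eQ : aeval z Q = z ^ (2 * M) * aeval (2 / z) P := by
      rw [aeval_eq_sum_range' hdeg (2 / z), hQ, map_sum, Finset.mul_sum]
      refine Finset.sum_congr rfl fun i hi => ?_
      have hiM : i ≤ 2 * M := Nat.lt_succ_iff.mp (Finset.mem_range.mp hi)
      rw [map_mul, aeval_C, map_pow, aeval_X, zsmul_eq_mul, div_pow]
      nth_rewrite 2 [show 2 * M = (2 * M - i) + i by omega]
      rw [pow_add]
      simp only [algebraMap_int_eq, eq_intCast, Int.cast_mul, Int.cast_pow, Int.cast_ofNat]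
      field_simp
    have eP : z ^ (2 * M) * aeval (2 / z) P = -((2 : ℂ) ^ M * aeval z P) := by
      simp only [hP, map_mul, map_pow, map_add, map_sub, aeval_X, aeval_C, map_ofNat, map_one]
      rw [hM, show 2 * (a + b + r) = 2 * a + (2 * b + 2 * r) by ring, pow_add, pow_add, pow_mul,
        pow_mul, pow_mul, pow_add, pow_add]
      have e1 : z ^ 2 * ((2 / z) ^ 2 - 2 * (2 / z) + 2) = 2 * (z ^ 2 - 2 * z + 2) := by
        field_simp; ring
      have e2 : z ^ 2 * ((2 / z - 1) * (2 / z - 2)) = 2 * ((z - 1) * (z - 2)) := by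
        field_simp; ring
      have e3 : z ^ 2 * ((2 / z) ^ 2 - 2) = -1 * (2 * (z ^ 2 - 2)) := by
        field_simp; ring
      calc (z ^ 2) ^ a * ((z ^ 2) ^ b * (z ^ 2) ^ r) *
            (((2 / z) ^ 2 - 2 * (2 / z) + 2) ^ a * ((2 / z - 1) * (2 / z - 2)) ^ b *
              ((2 / z) ^ 2 - 2) ^ r)
          = (z ^ 2 * ((2 / z) ^ 2 - 2 * (2 / z) + 2)) ^ a
              * (z ^ 2 * ((2 / z - 1) * (2 / z - 2))) ^ b
              * (z ^ 2 * ((2 / z) ^ 2 - 2)) ^ r := by simp only [mul_pow]; ring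
        _ = _ := by
            rw [e1, e2, e3]
            simp only [mul_pow, hr.neg_one_pow]
            ring
    rw [eQ, eP]
    simp
  have h0 : Q + C (2 ^ M) * P = 0 :=
    map_injective (Int.castRingHom ℂ) Int.cast_injective (by simpa using hzero)
  have hc := congrArg (fun p : ℤ[X] => p.coeff M) h0
  simp only [coeff_add, coeff_C_mul, coeff_zero, hQ, finsetSum_coeff, coeff_X_pow] at hc
  rw [Finset.sum_eq_single M] at hc
  · rw [if_pos (by omega), mul_one] at hc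
    have : (2 : ℤ) ^ M * P.coeff M = 0 := by linarith
    exact (mul_eq_zero.mp this).resolve_left (pow_ne_zero _ two_ne_zero)
  · intro i hi hne
    rw [if_neg, mul_zero]
    have := Finset.mem_range.mp hi
    omega
  · intro hn
    exact absurd (Finset.mem_range.mpr (by omega)) hn

/-- An integer polynomial whose derivative is a prime-to-`q` multiple of the digit part. -/
lemma exists_exact_part (q ra rb r : ℕ) (hq : q.Prime) (esum : ra + rb + 2 * r = q)
    (hrodd : Odd r) :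
    ∃ (cst : ℕ) (W : ℤ[X]), cst.Coprime q ∧ W.natDegree ≤ 2 * q - 1 ∧
      derivative W = C (cst : ℤ) * ((X ^ 2 - C 2 * X + C 2) ^ ra * ((X - C 1) * (X - C 2)) ^ rb
        * (X ^ 2 - C 2) ^ r * X ^ (r - 1)) := by
  classical
  have hr1 : 1 ≤ r := hrodd.pos
  set q3 : ℤ[X] := X ^ 2 - C 2 * X + C 2 with hq3
  set q5 : ℤ[X] := (X - C 1) * (X - C 2) with hq5
  set dd : ℤ[X] := X ^ 2 - C 2 with hdd
  set V : ℤ[X] := q3 ^ ra * q5 ^ rb * dd ^ r * X ^ (r - 1) with hV
  have d3 : q3.natDegree ≤ 2 := by rw [hq3]; compute_degree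
  have d5 : q5.natDegree ≤ 2 := by rw [hq5]; compute_degree
  have dD : dd.natDegree ≤ 2 := by rw [hdd]; compute_degree
  have hVdeg : V.natDegree ≤ ra * 2 + rb * 2 + r * 2 + (r - 1) := by
    refine natDegree_mul_le.trans (Nat.add_le_add (natDegree_mul_le.trans (Nat.add_le_add
      (natDegree_mul_le.trans (Nat.add_le_add (natDegree_pow_le_of_le ra d3)
        (natDegree_pow_le_of_le rb d5))) (natDegree_pow_le_of_le r dD))) ?_)
    rw [natDegree_X_pow]
  have hVmid : V.coeff (q - 1) = 0 := by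
    rw [hV, show q - 1 = (ra + rb + r) + (r - 1) by omega, coeff_mul_X_pow]
    exact middle_coeff ra rb r hrodd
  set cst : ℕ := ∏ j ∈ (Finset.Icc 1 (2 * q - 1)).erase q, j with hcst
  have hcstq : cst.Coprime q := by
    rw [hcst]
    refine Nat.Coprime.prod_left fun j hj => ?_
    obtain ⟨hjne, hjI⟩ := Finset.mem_erase.mp hj
    obtain ⟨hj1, hj2⟩ := Finset.mem_Icc.mp hjI
    refine (Nat.coprime_comm.mp ((Nat.Prime.coprime_iff_not_dvd hq).mpr ?_))
    rintro ⟨c, rfl⟩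
    rcases c with _ | _ | c
    · omega
    · omega
    · have := Nat.mul_le_mul_left q (show 2 ≤ c + 1 + 1 by omega)
      have := hq.two_le
      omega
  set W : ℤ[X] := ∑ e ∈ V.support, C (((cst / (e + 1) : ℕ) : ℤ) * V.coeff e) * X ^ (e + 1) with hW
  have hWV : derivative W = C (cst : ℤ) * V := by
    conv_rhs => rw [V.as_sum_support_C_mul_X_pow]
    rw [hW, derivative_sum, Finset.mul_sum]
    refine Finset.sum_congr rfl fun e he => ?_
    have hV0 : V.coeff e ≠ 0 := mem_support_iff.mp he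
    have hed : e ≤ V.natDegree := le_natDegree_of_mem_supp e he
    have hdvd : e + 1 ∣ cst := Finset.dvd_prod_of_mem _ (Finset.mem_erase.mpr
      ⟨fun h => hV0 ((show e = q - 1 by omega) ▸ hVmid), Finset.mem_Icc.mpr ⟨by omega, by omega⟩⟩)
    rw [derivative_C_mul_X_pow, Nat.add_sub_cancel, ← mul_assoc, ← map_mul]
    congr 2
    rw [mul_right_comm, ← Nat.cast_mul, Nat.div_mul_cancel hdvd]
  have hWdeg' : W.natDegree ≤ 2 * q - 1 := by
    refine natDegree_sum_le_of_forall_le _ _ fun e he => ?_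
    have := le_natDegree_of_mem_supp e he
    refine (natDegree_C_mul_X_pow_le _ _).trans ?_
    omega
  exact ⟨cst, W, hcstq, hWdeg', hWV⟩

/-- A common multiple of `1..Mb` with a single factor `q`. -/
lemma exists_multiple (q Mb : ℕ) (hq : q.Prime) (hMb : Mb < q * q) :
    ∃ e : ℕ, e.Coprime q ∧ ∀ j, 1 ≤ j → j ≤ Mb → j ∣ q * e := by
  set e : ℕ := ∏ j ∈ Finset.Icc 1 Mb, (if q ∣ j then j / q else j) with he
  have heq : e.Coprime q := by
    rw [he]
    refine Nat.Coprime.prod_left fun j hj => ?_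
    obtain ⟨hj1, hj2⟩ := Finset.mem_Icc.mp hj
    refine Nat.coprime_comm.mp ((Nat.Prime.coprime_iff_not_dvd hq).mpr ?_)
    split_ifs with hd
    · intro hd2
      obtain ⟨c, hc⟩ := hd
      rw [hc, Nat.mul_div_cancel_left c hq.pos] at hd2
      obtain ⟨c', rfl⟩ := hd2
      rcases Nat.eq_zero_or_pos c' with rfl | hc'
      · simp at hc; omega
      · have h1 : q * q ≤ j := by rw [hc, ← mul_assoc]; exact Nat.le_mul_of_pos_right _ hc'
        omega
    · exact hd
  have hLc : ∀ j, 1 ≤ j → j ≤ Mb → j ∣ q * e := by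
    intro j h1 h2
    have hm : (if q ∣ j then j / q else j) ∣ e :=
      Finset.dvd_prod_of_mem _ (Finset.mem_Icc.mpr ⟨h1, h2⟩)
    split_ifs at hm with hd
    · obtain ⟨c, rfl⟩ := hd
      rw [Nat.mul_div_cancel_left c hq.pos] at hm
      exact Nat.mul_dvd_mul_left q hm
    · exact hm.mul_left q
  exact ⟨e, heq, hLc⟩

lemma digit_identity (x y z D : ℂ) (hz : z ≠ 0) (hD : D ≠ 0) (fa fb ra rb k r' q A B H : ℕ)
    (hA : A = fa * q + ra) (hB : B = fb * q + rb) (hH : (k + 1) * q = H + (r' + 1)) :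
    x ^ A * y ^ B / (z ^ (H + 1) * D ^ H)
      = (x ^ fa * y ^ fb) ^ q * (x ^ ra * y ^ rb * D ^ (r' + 1) * z ^ r')
        / (z ^ (k + 1) * D ^ (k + 1)) ^ q := by
  rw [mul_pow (z ^ (k + 1)), ← pow_mul z, ← pow_mul D, hH, hA, hB, mul_pow, ← pow_mul x,
    ← pow_mul y]
  simp only [pow_add, pow_one]
  field_simp

lemma exact_identity (u u' w v d d' cst z a b c : ℂ) (q : ℕ) (hd : d ≠ 0) :
    ((((q + 1 : ℕ) : ℂ) * u ^ q * u') * w + u ^ (q + 1) * (cst * v)) * (d ^ (q + 1))⁻¹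
      + u ^ (q + 1) * w * (-(((q + 1 : ℕ) : ℂ) * d ^ q * d') / (d ^ (q + 1)) ^ 2)
      + ((q + 1 : ℕ) : ℂ) * ((u ^ (q + 1) * w * d' - u ^ q * u' * w * d) / d ^ (q + 1 + 1)
          - logPart a b c z)
    = cst * (u ^ (q + 1) * v / d ^ (q + 1))
      - logPart (((q + 1 : ℕ) : ℂ) * a) (((q + 1 : ℕ) : ℂ) * b) (((q + 1 : ℕ) : ℂ) * c) z := by
  unfold logPart
  generalize ((q + 1 : ℕ) : ℂ) = m
  simp only [pow_succ]
  field_simp
  ring

lemma exact_deriv (U W Wd V NK : ℤ[X]) (K : ℂ → ℂ) (cst q : ℕ) (hq : 0 < q) (a b c z : ℂ)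
    (hne : aeval z Wd ≠ 0) (hWV : derivative W = C (cst : ℤ) * V)
    (hNK : NK = U ^ q * W * derivative Wd - U ^ (q - 1) * derivative U * W * Wd)
    (hK : HasDerivAt K (aeval z NK / aeval z Wd ^ (q + 1) - logPart a b c z) z) :
    HasDerivAt (fun y => aeval y U ^ q * aeval y W * (aeval y Wd ^ q)⁻¹ + (q : ℂ) * K y)
      ((cst : ℂ) * (aeval z U ^ q * aeval z V / aeval z Wd ^ q)
        - logPart ((q : ℂ) * a) ((q : ℂ) * b) ((q : ℂ) * c) z) z := by
  obtain ⟨q, rfl⟩ : ∃ q', q = q' + 1 := ⟨q - 1, by omega⟩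
  refine ((((U.hasDerivAt_aeval z).fun_pow (q + 1)).mul (W.hasDerivAt_aeval z)).mul
    (((Wd.hasDerivAt_aeval z).fun_pow (q + 1)).fun_inv (pow_ne_zero _ hne))).add
    (hK.const_mul ((q + 1 : ℕ) : ℂ)) |>.congr_deriv ?_
  simp only [Pi.mul_apply, hNK, hWV, map_sub, map_mul, map_pow, map_natCast,
    eq_intCast, Int.cast_natCast, Nat.add_sub_cancel]
  exact exact_identity (aeval z U) _ (aeval z W) _ (aeval z Wd) _ (cst : ℂ) z a b c q hne

/-- At a saved prime the rational part is integral. -/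
lemma saved_integral (A B H q : ℕ) (hAB : A + B = 2 * H) (hH : Even H) (hs : Saved A B H q)
    (ρ : ℤ) (G : ℂ → ℂ) (hG : ∀ z ∈ dom, HasDerivAt G (integrand A B H z - ρ / z) z) :
    G (1 + Complex.I) - G (1 - Complex.I) ∈ locInt q := by
  classical
  obtain ⟨hq, hodd, hqH, hsize, hk, hfl⟩ := hs
  set O := locInt q with hO
  set k := H / q with hkdef
  set fa := A / q with hfa
  set fb := B / q with hfb
  set ra := A % q with hra
  set rb := B % q with hrb
  set r₀ := H % q with hr₀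
  have eA : fa * q + ra = A := by rw [hfa, hra, mul_comm]; exact Nat.div_add_mod A q
  have eB : fb * q + rb = B := by rw [hfb, hrb, mul_comm]; exact Nat.div_add_mod B q
  have eH : k * q + r₀ = H := by rw [hkdef, hr₀, mul_comm]; exact Nat.div_add_mod H q
  have lH : r₀ < q := Nat.mod_lt _ hq.pos
  set r := q - r₀ with hr
  have esum : ra + rb + 2 * r = q := by
    have : (fa + fb) * q = (2 * k + 1) * q := by rw [hfl]
    rw [add_mul, add_mul, one_mul, mul_assoc] at this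
    omega
  have hrodd : Odd r := by
    have h1 : Even r₀ := by
      have h2 : Even (k * q + r₀) := eH.symm ▸ hH
      rw [Nat.even_add] at h2
      exact h2.mp (hk.mul_right q)
    rw [hr, Nat.odd_sub lH.le]
    simp [hodd, h1]
  have hr1 : 1 ≤ r := by omega
  have hkq : k + 4 < q := by
    by_contra hcon
    have : q * q ≤ (k + 4) * q := Nat.mul_le_mul_right q (not_lt.mp hcon)
    rw [add_mul] at this
    omega
  -- polynomials
  set q3 : ℤ[X] := X ^ 2 - C 2 * X + C 2 with hq3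
  set q5 : ℤ[X] := (X - C 1) * (X - C 2) with hq5
  set dd : ℤ[X] := X ^ 2 - C 2 with hdd
  set V : ℤ[X] := q3 ^ ra * q5 ^ rb * dd ^ r * X ^ (r - 1) with hV
  set U : ℤ[X] := q3 ^ fa * q5 ^ fb with hU
  set Wd : ℤ[X] := X ^ (k + 1) * dd ^ (k + 1) with hWd
  have d3 : q3.natDegree ≤ 2 := by rw [hq3]; compute_degree
  have d5 : q5.natDegree ≤ 2 := by rw [hq5]; compute_degree
  have dD : dd.natDegree ≤ 2 := by rw [hdd]; compute_degree
  have hUdeg : U.natDegree ≤ 2 * (2 * k + 1) := by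
    refine (natDegree_mul_le.trans (Nat.add_le_add (natDegree_pow_le_of_le fa d3)
      (natDegree_pow_le_of_le fb d5))).trans ?_
    omega
  have hWdeg : Wd.natDegree ≤ 3 * (k + 1) := by
    refine (natDegree_mul_le.trans (Nat.add_le_add (le_of_eq (natDegree_X_pow _))
      (natDegree_pow_le_of_le (k + 1) dD))).trans ?_
    omega
  obtain ⟨cst, W, hcstq, hWdeg', hWV⟩ := exists_exact_part q ra rb r hq esum hrodd
  rw [← hq3, ← hq5, ← hdd, ← hV] at hWV
  set NK : ℤ[X] := U ^ q * W * derivative Wd - U ^ (q - 1) * derivative U * W * Wd with hNK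
  set Mb := (k + 1) * (q + 1) with hMb
  have hNKdeg : NK.natDegree + 1 ≤ Mb + (Mb + 2 * Mb) := by
    have hU' : (derivative U).natDegree ≤ 2 * (2 * k + 1) :=
      (natDegree_derivative_le U).trans (by omega)
    have hW' : (derivative Wd).natDegree ≤ 3 * (k + 1) :=
      (natDegree_derivative_le Wd).trans (by omega)
    have e1 : (U ^ q * W * derivative Wd).natDegree
        ≤ q * (2 * (2 * k + 1)) + (2 * q - 1) + 3 * (k + 1) :=
      natDegree_mul_le.trans (Nat.add_le_add (natDegree_mul_le.trans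
        (Nat.add_le_add (natDegree_pow_le_of_le q hUdeg) hWdeg')) hW')
    have e2 : (U ^ (q - 1) * derivative U * W * Wd).natDegree
        ≤ (q - 1) * (2 * (2 * k + 1)) + 2 * (2 * k + 1) + (2 * q - 1) + 3 * (k + 1) :=
      natDegree_mul_le.trans (Nat.add_le_add (natDegree_mul_le.trans (Nat.add_le_add
        (natDegree_mul_le.trans (Nat.add_le_add (natDegree_pow_le_of_le (q - 1) hUdeg) hU'))
          hWdeg')) hWdeg)
    have e3 : (q - 1) * (2 * (2 * k + 1)) + 2 * (2 * k + 1) = q * (2 * (2 * k + 1)) := by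
      rw [← Nat.succ_mul]; congr 1; omega
    have := natDegree_sub_le (U ^ q * W * derivative Wd) (U ^ (q - 1) * derivative U * W * Wd)
    rw [← hNK] at this
    rw [e3] at e2
    have e4 : q * (2 * (2 * k + 1)) = 4 * (k * q) + 2 * q := by ring
    have e5 : Mb = k * q + q + k + 1 := by rw [hMb]; ring
    omega
  obtain ⟨e, heq, hLc⟩ := exists_multiple q Mb hq (by
    have h1 : Mb ≤ (q - 4) * (q + 1) := by rw [hMb]; exact Nat.mul_le_mul_right _ (by omega)
    have h2 : (q - 4) * (q + 1) < q * q := by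
      obtain ⟨g, hg⟩ : ∃ g, q = g + 4 := ⟨q - 4, by omega⟩
      rw [hg, Nat.add_sub_cancel]
      nlinarith
    omega)
  have hgood := goodPts_pm hodd
  obtain ⟨σ, K, a, b, c, -, hK, hKp⟩ := prim_rat (O := O) (Lc := q * e)
    (pts := {1 + Complex.I, 1 - Complex.I}) (rtwo_inv_mem hodd).1 (rtwo_inv_mem hodd).2
    (locInt_rtwo q) hgood Mb hLc NK Mb Mb (by omega) (by omega) hNKdeg
    (by rw [hMb]; positivity)
  -- the exact part
  set H₀ : ℂ → ℂ := fun z => aeval z U ^ q * aeval z W * (aeval z Wd ^ q)⁻¹ with hH₀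
  have hWdz : ∀ z : ℂ, aeval z Wd = z ^ (k + 1) * (z ^ 2 - 2) ^ (k + 1) := by
    intro z; simp [hWd, hdd, map_ofNat]
  have hWne : ∀ z ∈ dom, aeval z Wd ≠ 0 := fun z hz => by
    rw [hWdz]; exact mul_ne_zero (pow_ne_zero _ hz.1) (pow_ne_zero _ hz.2)
  have hf : ∀ z ∈ dom, integrand A B H z = aeval z U ^ q * aeval z V / aeval z Wd ^ q := by
    intro z hz
    obtain ⟨r', hr'⟩ : ∃ r', r = r' + 1 := ⟨r - 1, by omega⟩
    rw [hWdz, integrand, digit_identity (z ^ 2 - 2 * z + 2) ((z - 1) * (z - 2)) z (z ^ 2 - 2) hz.1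
      hz.2 fa fb ra rb k r' q A B H eA.symm eB.symm (by rw [add_mul, one_mul]; omega)]
    simp only [hU, hV, hq3, hq5, hdd, map_mul, map_pow, map_add, map_sub, aeval_X, aeval_C,
      map_ofNat, map_one, hr', Nat.add_sub_cancel]
  have hH₀d : ∀ z ∈ dom, HasDerivAt (fun z => H₀ z + (q : ℂ) * K z)
      ((cst : ℂ) * integrand A B H z - logPart ((q : ℂ) * a) ((q : ℂ) * b) ((q : ℂ) * c) z) z := by
    intro z hz
    rw [hf z hz]
    refine exact_deriv U W Wd V NK K cst q hq.pos a b c z (hWne z hz) hWV rfl ?_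
    refine (hK z hz).congr_deriv ?_
    rw [hWdz, mul_pow, ← pow_mul, ← pow_mul]
  have hcG : ∀ z ∈ dom, HasDerivAt (fun z => (cst : ℂ) * G z)
      ((cst : ℂ) * integrand A B H z - logPart ((cst : ℂ) * ρ) 0 0 z) z := fun z hz =>
    ((hG z hz).const_mul (cst : ℂ)).congr_deriv (by simp [logPart]; ring)
  obtain ⟨u0, u1, u2⟩ := logPart_unique (a := (q : ℂ) * a - (cst : ℂ) * ρ) (b := (q : ℂ) * b)
    (c := (q : ℂ) * c) (G := fun z => (cst : ℂ) * G z - (H₀ z + (q : ℂ) * K z))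
    fun z hz => ((hcG z hz).sub (hH₀d z hz)).congr_deriv (by unfold logPart; ring)
  have hdiff := primitive_diff hcG (fun z hz => (hH₀d z hz).congr_deriv (by
    rw [sub_eq_zero.mp u0, u1, u2]))
  have hval : ∀ p ∈ ({1 + Complex.I, 1 - Complex.I} : Set ℂ), H₀ p + (q : ℂ) * K p ∈ O := by
    intro p hp
    obtain ⟨hpO, hp0, hp1, hp2⟩ := hgood p hp
    have haev : ∀ P : ℤ[X], aeval p P ∈ O := fun P => by
      rw [aeval_eq_sum_range]
      exact sum_mem fun i _ => zsmul_mem (pow_mem hpO i) _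
    refine O.add_mem (O.mul_mem (O.mul_mem (pow_mem (haev U) q) (haev W)) ?_) ?_
    · rw [hWdz, mul_pow, mul_inv, ← inv_pow, ← inv_pow, ← inv_pow, ← inv_pow,
        show p ^ 2 - 2 = (p - rtwo) * (p + rtwo) by rw [← rtwo_sq]; ring, mul_inv]
      exact O.mul_mem (pow_mem (pow_mem hp0 _) _)
        (pow_mem (pow_mem (O.mul_mem hp1 hp2) _) _)
    · have h := O.mul_mem (hKp p hp) (locInt_inv_natCast heq)
      have he0 : (e : ℂ) ≠ 0 := by
        refine Nat.cast_ne_zero.mpr fun h0 => ?_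
        rw [h0, Nat.coprime_zero_left] at heq
        exact hq.ne_one heq
      rwa [show ((q * e : ℕ) : ℂ) * K p * (e : ℂ)⁻¹ = (q : ℂ) * K p by
        push_cast; field_simp] at h
  have hc0 : (cst : ℂ) ≠ 0 := by
    refine Nat.cast_ne_zero.mpr fun h0 => ?_
    rw [h0, Nat.coprime_zero_left] at hcstq
    exact hq.ne_one hcstq
  rw [show G (1 + Complex.I) - G (1 - Complex.I) = (cst : ℂ)⁻¹ *
    ((cst : ℂ) * G (1 + Complex.I) - (cst : ℂ) * G (1 - Complex.I)) by field_simp, hdiff]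
  exact O.mul_mem (locInt_inv_natCast hcstq)
    (O.sub_mem (hval _ (by simp)) (hval _ (by simp)))

end Vale.Agent.P021Pi
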