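import Vale.Agent.P021Pi.Defs
import Vale.Agent.Common.PNT

/-!
# The primes that can be removed from the denominator (P021)

The primes `q` for which the fractional part of `n / q` lies in one of 36 rational intervals
carry at least `exp (5.7005 n)`, by the prime number theorem.
-/

namespace Vale.Agent.P021Pi

open Filter Topology Finset

/-- The 36 intervals, in units of `1 / 47656`. -/
def savedIvs : List (ℕ × ℕ) :=
 [(518, 644), (1702, 1932), (3108, 3220), (4255, 4508), (5698, 5796),
  (6808, 7084), (8288, 8372), (9361, 9660), (10878, 10948), (11914, 12236),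
  (13468, 13524), (14504, 14812), (16058, 16100), (17094, 17388), (18648, 18676),
  (19684, 19964), (21238, 21252), (22274, 22540), (24864, 25116), (26381, 26404),
  (27454, 27692), (28934, 28980), (30044, 30268), (31487, 31556), (32634, 32844),
  (34040, 34132), (35224, 35420), (36593, 36708), (37814, 37996), (39146, 39284),
  (40404, 40572), (41699, 41860), (42994, 43148), (44252, 44436), (45584, 45724),
  (46805, 47012)]

/-- The `i`-th interval. -/
def savedIv (i : Fin 36) : ℕ × ℕ := savedIvs.getD i (0, 0)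

/-- The index set: a shift below 1000 and an interval lying above `1 / 74`. -/
@[irreducible] def savedIdx : Finset (ℕ × Fin 36) :=
  (range 1000 ×ˢ univ).filter fun j => 644 ≤ 47656 * j.1 + (savedIv j.2).1

/-- Lower endpoint. -/
def savedLo (j : ℕ × Fin 36) : ℕ := 47656 * j.1 + (savedIv j.2).1

/-- Upper endpoint. -/
def savedHi (j : ℕ × Fin 36) : ℕ := 47656 * j.1 + (savedIv j.2).2

theorem savedIv_facts : ∀ i : Fin 36,
    (savedIv i).1 < (savedIv i).2 ∧ 0 < (savedIv i).1 ∧ (savedIv i).2 ≤ 47656 ∧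
    Even (74 * (savedIv i).1 / 47656) ∧
    56 * (savedIv i).1 / 47656 + 92 * (savedIv i).1 / 47656 = 2 * (74 * (savedIv i).1 / 47656) + 1 ∧
    56 * (savedIv i).2 ≤ (56 * (savedIv i).1 / 47656 + 1) * 47656 ∧
    92 * (savedIv i).2 ≤ (92 * (savedIv i).1 / 47656 + 1) * 47656 ∧
    74 * (savedIv i).2 ≤ (74 * (savedIv i).1 / 47656 + 1) * 47656 := by
  decide +kernel

theorem savedIv_sorted : ∀ i j : Fin 36, i < j → (savedIv i).2 ≤ (savedIv j).1 := by
  decide +kernel

theorem savedIdx_sorted {j j' : ℕ × Fin 36} (h : j.1 < j'.1 ∨ j.1 = j'.1 ∧ j.2 < j'.2) :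
    savedHi j ≤ savedLo j' := by
  simp only [savedHi, savedLo]
  rcases h with h | ⟨h1, h2⟩
  · have := (savedIv_facts j.2).2.2.1
    omega
  · rw [h1]
    have := savedIv_sorted _ _ h2
    omega

/-- The quotient `c n / q` on an interval. -/
theorem floor_on_interval {c k a b n q : ℕ} (hb : c * b ≤ (c * a / 47656 + 1) * 47656)
    (hlo : (47656 * k + a) * q ≤ n * 47656) (hhi : n * 47656 < (47656 * k + b) * q) :
    c * n / q = c * k + c * a / 47656 := by
  rcases Nat.eq_zero_or_pos c with rfl | hc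
  · simp
  refine Nat.div_eq_of_lt_le ?_ ?_
  · refine Nat.le_of_mul_le_mul_right (a := _) ?_ (show 0 < 47656 by norm_num)
    have h1 := Nat.div_mul_le_self (c * a) 47656
    nlinarith [Nat.mul_le_mul_left c hlo, Nat.mul_le_mul_right q h1]
  · refine Nat.lt_of_mul_lt_mul_right (a := 47656) ?_
    nlinarith [Nat.mul_lt_mul_of_pos_left hhi hc, Nat.mul_le_mul_right q hb]

set_option linter.constructorNameAsVariable false in
theorem saved_of_mem {n q : ℕ} {j : ℕ × Fin 36} (hj : j ∈ savedIdx) (hn : 10000000000 ≤ n)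
    (hq : q.Prime) (hlo : savedLo j * q < n * 47656) (hhi : n * 47656 < savedHi j * q) :
    Saved (56 * n) (92 * n) (74 * n) q := by
  unfold savedIdx at hj
  rw [Finset.mem_filter] at hj
  obtain ⟨hk, h644⟩ := hj
  rw [Finset.mem_product, Finset.mem_range] at hk
  obtain ⟨-, -, hb, heven, hsum, h56, h92, h74⟩ := savedIv_facts j.2
  simp only [savedLo, savedHi] at hlo hhi
  have f56 := floor_on_interval h56 hlo.le hhi
  have f92 := floor_on_interval h92 hlo.le hhi
  have f74 := floor_on_interval h74 hlo.le hhi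
  have hH : q ≤ 74 * n := by
    have := Nat.mul_le_mul_right q h644
    omega
  have hbig : n < 1000 * q := by
    have h1 : (47656 * j.1 + (savedIv j.2).2) * q ≤ 1000 * 47656 * q :=
      Nat.mul_le_mul_right q (by omega)
    omega
  have hq5 : 100000 < q := by omega
  refine ⟨hq, hq.odd_of_ne_two (by omega), hH, ?_, ?_, ?_⟩
  · have := Nat.mul_le_mul_right q hq5.le
    omega
  · rw [f74]
    exact Even.add (Even.mul_right (by decide) _) heven
  · rw [f56, f92, f74]
    omega

/-- The primes attached to one interval. -/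
noncomputable def savedPrimes (n : ℕ) (j : ℕ × Fin 36) : Finset ℕ :=
  (Finset.Ioc (n * 47656 / savedHi j) ((n * 47656 - 1) / savedLo j)).filter Nat.Prime

theorem mem_savedPrimes {n q : ℕ} {j : ℕ × Fin 36} (hn : 1 ≤ n)
    (hq : q ∈ savedPrimes n j) :
    q.Prime ∧ savedLo j * q < n * 47656 ∧ n * 47656 < savedHi j * q := by
  simp only [savedPrimes, Finset.mem_filter, Finset.mem_Ioc] at hq
  obtain ⟨⟨h1, h2⟩, hp⟩ := hq
  have hlo : 0 < savedLo j := by have := (savedIv_facts j.2).2.1; simp only [savedLo]; omega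
  have hhi : 0 < savedHi j := by
    have := (savedIv_facts j.2).2.1; have := (savedIv_facts j.2).1; simp only [savedHi]; omega
  rw [Nat.div_lt_iff_lt_mul hhi] at h1
  rw [Nat.le_div_iff_mul_le hlo] at h2
  have h3 : q * savedHi j = savedHi j * q := mul_comm _ _
  have h4 : q * savedLo j = savedLo j * q := mul_comm _ _
  exact ⟨hp, by omega, by omega⟩

theorem savedPrimes_disjoint {n : ℕ} (hn : 1 ≤ n) {j j' : ℕ × Fin 36}
    (h : j.1 < j'.1 ∨ j.1 = j'.1 ∧ j.2 < j'.2) :
    Disjoint (savedPrimes n j) (savedPrimes n j') := by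
  rw [Finset.disjoint_left]
  intro q hq hq'
  obtain ⟨-, -, h1⟩ := mem_savedPrimes hn hq
  obtain ⟨-, h2, -⟩ := mem_savedPrimes hn hq'
  have := Nat.mul_le_mul_right q (savedIdx_sorted h)
  omega

theorem pairwiseDisjoint_savedPrimes {n : ℕ} (hn : 1 ≤ n) :
    (savedIdx : Set (ℕ × Fin 36)).PairwiseDisjoint (savedPrimes n) := by
  intro j _ j' _ hne
  rcases lt_trichotomy j.1 j'.1 with h | h | h
  · exact savedPrimes_disjoint hn (Or.inl h)
  · rcases lt_trichotomy j.2 j'.2 with h' | h' | h'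
    · exact savedPrimes_disjoint hn (Or.inr ⟨h, h'⟩)
    · exact absurd (Prod.ext h h') hne
    · exact (savedPrimes_disjoint hn (Or.inr ⟨h.symm, h'⟩)).symm
  · exact (savedPrimes_disjoint hn (Or.inl h)).symm

theorem log_prod_savedPrimes (n : ℕ) (j : ℕ × Fin 36)
    (h : n * 47656 / savedHi j ≤ (n * 47656 - 1) / savedLo j) :
    Real.log ((∏ q ∈ savedPrimes n j, q : ℕ) : ℝ) =
      Chebyshev.theta (((n * 47656 - 1) / savedLo j : ℕ) : ℝ) -
        Chebyshev.theta ((n * 47656 / savedHi j : ℕ) : ℝ) := by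
  rw [Nat.cast_prod, Real.log_prod fun q hq => by
    have := (Finset.mem_filter.1 hq).2.pos
    positivity]
  rw [savedPrimes, Chebyshev.theta, Chebyshev.theta, Nat.floor_natCast, Nat.floor_natCast,
    Finset.sum_filter, Finset.sum_filter, Finset.sum_filter,
    ← Finset.sum_Ioc_consecutive _ (Nat.zero_le _) h]
  ring

/-- `θ` of a linearly growing cutoff. -/
theorem tendsto_theta_nat_div (f : ℕ → ℕ) {c : ℝ} (hc : 0 < c)
    (hf : ∀ᶠ n : ℕ in atTop, |(f n : ℝ) - c * n| ≤ 2) :
    Tendsto (fun n : ℕ => Chebyshev.theta (f n : ℝ) / n) atTop (𝓝 c) := by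
  have hinv : Tendsto (fun n : ℕ => (2 : ℝ) / n) atTop (𝓝 0) :=
    tendsto_const_div_atTop_nhds_zero_nat 2
  have hdiv : Tendsto (fun n : ℕ => (f n : ℝ) / n) atTop (𝓝 c) := by
    rw [tendsto_iff_dist_tendsto_zero]
    refine squeeze_zero' (Eventually.of_forall fun _ => dist_nonneg) ?_ hinv
    filter_upwards [hf, eventually_ge_atTop 1] with n hn hn1
    have h0 : (0 : ℝ) < n := by exact_mod_cast hn1
    rw [Real.dist_eq, show (f n : ℝ) / n - c = ((f n : ℝ) - c * n) / n by field_simp, abs_div,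
      abs_of_pos h0]
    exact div_le_div_of_nonneg_right hn h0.le
  have hatTop : Tendsto (fun n : ℕ => (f n : ℝ)) atTop atTop := by
    refine Tendsto.congr' ?_ (hdiv.pos_mul_atTop hc tendsto_natCast_atTop_atTop)
    filter_upwards [eventually_ge_atTop 1] with n hn
    have h0 : (n : ℝ) ≠ 0 := by positivity
    field_simp
  have h := (Common.PNT.tendsto_theta_div.comp hatTop).mul hdiv
  rw [one_mul] at h
  refine h.congr' ?_
  filter_upwards [hatTop.eventually_gt_atTop 0] with n hn
  simp only [Function.comp_apply]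
  field_simp

theorem abs_natDiv_sub {N y : ℕ} (hy : 0 < y) : |((N / y : ℕ) : ℝ) - (N : ℝ) / y| ≤ 1 := by
  rw [← Nat.floor_div_eq_div (K := ℝ) N y, abs_sub_le_iff]
  have h1 := Nat.floor_le (show (0 : ℝ) ≤ (N : ℝ) / y by positivity)
  have h2 := Nat.lt_floor_add_one ((N : ℝ) / y)
  constructor <;> linarith

theorem tendsto_log_savedPrimes (j : ℕ × Fin 36) :
    Tendsto (fun n : ℕ => Real.log ((∏ q ∈ savedPrimes n j, q : ℕ) : ℝ) / n) atTop
      (𝓝 (47656 / (savedLo j : ℝ) - 47656 / (savedHi j : ℝ))) := by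
  obtain ⟨hab, ha, -⟩ := savedIv_facts j.2
  have hlo : 0 < savedLo j := by simp only [savedLo]; omega
  have hlt : savedLo j < savedHi j := by simp only [savedLo, savedHi]; omega
  have hhi : 0 < savedHi j := hlo.trans hlt
  have hloR : (0 : ℝ) < savedLo j := by exact_mod_cast hlo
  have hhiR : (0 : ℝ) < savedHi j := by exact_mod_cast hhi
  have hR : ∀ᶠ n : ℕ in atTop, |((((n * 47656 - 1) / savedLo j : ℕ)) : ℝ) -
      47656 / (savedLo j : ℝ) * n| ≤ 2 := by
    filter_upwards [eventually_ge_atTop 1] with n hn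
    have h1 := abs_natDiv_sub (N := n * 47656 - 1) hlo
    rw [Nat.cast_sub (by omega), Nat.cast_mul, Nat.cast_one] at h1
    have h2 : (0 : ℝ) ≤ 1 / (savedLo j : ℝ) ∧ 1 / (savedLo j : ℝ) ≤ 1 :=
      ⟨by positivity, by rw [div_le_one hloR]; exact_mod_cast hlo⟩
    have h3 : 47656 / (savedLo j : ℝ) * n =
        ((n : ℝ) * ((47656 : ℕ) : ℝ) - 1) / savedLo j + 1 / savedLo j := by push_cast; ring
    rw [h3, abs_le]
    obtain ⟨h4, h5⟩ := abs_le.1 h1
    constructor <;> linarith [h2.1, h2.2]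
  have hL : ∀ᶠ n : ℕ in atTop, |((n * 47656 / savedHi j : ℕ) : ℝ) -
      47656 / (savedHi j : ℝ) * n| ≤ 2 := by
    filter_upwards with n
    have h1 := abs_natDiv_sub (N := n * 47656) hhi
    rw [Nat.cast_mul] at h1
    have h3 : 47656 / (savedHi j : ℝ) * n = (n : ℝ) * ((47656 : ℕ) : ℝ) / savedHi j := by
      push_cast; ring
    rw [h3]
    linarith
  have h := (tendsto_theta_nat_div _ (by positivity) hR).sub
    (tendsto_theta_nat_div _ (by positivity) hL)
  refine h.congr' ?_
  have hgap : 47656 / (savedHi j : ℝ) < 47656 / (savedLo j : ℝ) :=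
    div_lt_div_of_pos_left (by norm_num) hloR (by exact_mod_cast hlt)
  obtain ⟨N, hN⟩ := exists_nat_gt (4 / (47656 / (savedLo j : ℝ) - 47656 / (savedHi j : ℝ)))
  filter_upwards [hR, hL, eventually_ge_atTop N] with n h1 h2 hn
  rw [log_prod_savedPrimes n j ?_, sub_div]
  have h4 : (4 : ℝ) ≤ n * (47656 / (savedLo j : ℝ) - 47656 / (savedHi j : ℝ)) := by
    rw [← div_le_iff₀ (sub_pos.2 hgap)]
    exact hN.le.trans (by exact_mod_cast hn)
  have : ((n * 47656 / savedHi j : ℕ) : ℝ) ≤ (((n * 47656 - 1) / savedLo j : ℕ) : ℝ) := by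
    obtain ⟨a1, a2⟩ := abs_le.1 h1
    obtain ⟨b1, b2⟩ := abs_le.1 h2
    nlinarith
  exact_mod_cast this

/-- The limiting saving. -/
noncomputable def savedTerm (k : ℕ) (i : Fin 36) : ℝ :=
  if 644 ≤ 47656 * k + (savedIv i).1 then
    47656 / (savedLo (k, i) : ℝ) - 47656 / (savedHi (k, i) : ℝ) else 0

/-- Integer lower bound for `10 ^ 9` times a term. -/
def savedFloor (k : ℕ) (i : Fin 36) : ℕ :=
  if 644 ≤ 47656 * k + (savedIv i).1 then
    47656 * ((savedIv i).2 - (savedIv i).1) * 10 ^ 9 / (savedLo (k, i) * savedHi (k, i)) else 0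

/-- Integer lower bound for `10 ^ 9` times the telescoped tail `20 ≤ k < 1000`. -/
def savedTail (i : Fin 36) : ℕ :=
  ((savedIv i).2 - (savedIv i).1) * 10 ^ 9 * (1000 * 47656 - 20 * 47656) /
    ((20 * 47656 + (savedIv i).2) * (1000 * 47656 + (savedIv i).2))

theorem saved_certificate : 5700600000 ≤
    ∑ i : Fin 36, ((∑ k ∈ range 20, savedFloor k i) + savedTail i) := by
  decide +kernel

theorem savedFloor_le (k : ℕ) (i : Fin 36) :
    (savedFloor k i : ℝ) ≤ 10 ^ 9 * savedTerm k i := by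
  simp only [savedFloor, savedTerm]
  split_ifs with h
  · obtain ⟨hab, ha, -⟩ := savedIv_facts i
    refine Nat.cast_div_le.trans (le_of_eq ?_)
    have h1 : (savedLo (k, i) : ℝ) ≠ 0 := by simp only [savedLo]; positivity
    have h2 : (savedHi (k, i) : ℝ) ≠ 0 := by
      have : 0 < (savedIv i).2 := ha.trans hab
      simp only [savedHi]; positivity
    push_cast [Nat.cast_sub hab.le]
    field_simp
    simp only [savedLo, savedHi]
    push_cast
    ring
  · simp

theorem savedTail_le (i : Fin 36) :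
    (savedTail i : ℝ) ≤ 10 ^ 9 * ∑ k ∈ Finset.Ico 20 1000, savedTerm k i := by
  obtain ⟨hab, ha, hb, -⟩ := savedIv_facts i
  set a := (savedIv i).1 with hadef
  set b := (savedIv i).2 with hbdef
  let f : ℕ → ℝ := fun k => -(((b : ℝ) - a) / (47656 * (k : ℝ) + b))
  have hstep : ∀ k ∈ Finset.Ico 20 1000, f (k + 1) - f k ≤ savedTerm k i := by
    intro k hk
    rw [Finset.mem_Ico] at hk
    simp only [savedTerm, savedLo, savedHi, ← hadef, ← hbdef, f]
    rw [if_pos (by omega)]
    push_cast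
    have ha' : (1 : ℝ) ≤ a := by exact_mod_cast ha
    have hab' : (a : ℝ) ≤ b := by exact_mod_cast hab.le
    have hX : (0 : ℝ) < 47656 * (k : ℝ) + a := by positivity
    have hY : (0 : ℝ) < 47656 * (k : ℝ) + b := by linarith
    rw [show -(((b : ℝ) - a) / (47656 * ((k : ℝ) + 1) + b)) - -(((b : ℝ) - a) / (47656 * k + b))
        = ((b : ℝ) - a) * 47656 / ((47656 * k + b) * (47656 * ((k : ℝ) + 1) + b)) by
      have : (47656 * ((k : ℝ) + 1) + b) ≠ 0 := by positivity
      field_simp; ring]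
    rw [show (47656 : ℝ) / (47656 * k + a) - 47656 / (47656 * k + b)
        = ((b : ℝ) - a) * 47656 / ((47656 * k + b) * (47656 * k + a)) by field_simp; ring]
    refine div_le_div_of_nonneg_left (by nlinarith) (by positivity)
      (mul_le_mul_of_nonneg_left ?_ hY.le)
    linarith
  have hsum := Finset.sum_le_sum hstep
  rw [Finset.sum_Ico_sub f (by norm_num : 20 ≤ 1000)] at hsum
  refine Nat.cast_div_le.trans (le_trans (le_of_eq ?_)
    (mul_le_mul_of_nonneg_left hsum (by norm_num)))
  simp only [f, ← hadef, ← hbdef]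
  push_cast [Nat.cast_sub hab.le]
  have hb' : (0 : ℝ) ≤ b := by positivity
  field_simp
  ring

theorem saved_limit_lower : (57006 : ℝ) / 10000 ≤
    ∑ j ∈ savedIdx, (47656 / (savedLo j : ℝ) - 47656 / (savedHi j : ℝ)) := by
  unfold savedIdx
  rw [Finset.sum_filter, Finset.sum_product, Finset.sum_comm]
  change _ ≤ ∑ i : Fin 36, ∑ k ∈ range 1000, savedTerm k i
  have hc : (5700600000 : ℝ) ≤ ((∑ i : Fin 36, ((∑ k ∈ range 20, savedFloor k i) + savedTail i) : ℕ) : ℝ) := by
    exact_mod_cast saved_certificate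
  have hb : ∀ i : Fin 36, (((∑ k ∈ range 20, savedFloor k i) + savedTail i : ℕ) : ℝ) ≤
      10 ^ 9 * ∑ k ∈ range 1000, savedTerm k i := by
    intro i
    rw [← Finset.sum_range_add_sum_Ico _ (show 20 ≤ 1000 by norm_num), mul_add, Finset.mul_sum,
      Nat.cast_add, Nat.cast_sum]
    exact add_le_add (Finset.sum_le_sum fun k _ => savedFloor_le k i) (savedTail_le i)
  rw [Nat.cast_sum] at hc
  have := hc.trans (Finset.sum_le_sum fun i _ => hb i)
  rw [← Finset.mul_sum] at this
  linarith

/-- The prime saving for the exponents (56, 92, 74). -/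
theorem savingStatement : SavingStatement 56 92 74 5.7005 := by
  have hlim := tendsto_finsetSum savedIdx fun j _ => tendsto_log_savedPrimes j
  have hlt : (5.7005 : ℝ) <
      ∑ j ∈ savedIdx, (47656 / (savedLo j : ℝ) - 47656 / (savedHi j : ℝ)) :=
    lt_of_lt_of_le (by norm_num) saved_limit_lower
  filter_upwards [hlim.eventually (eventually_gt_nhds hlt), eventually_ge_atTop 10000000000]
    with n hn hbig
  have hn1 : 1 ≤ n := le_trans (by norm_num) hbig
  refine ⟨savedIdx.biUnion (savedPrimes n), fun q hq => ?_, ?_⟩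
  · obtain ⟨j, hj, hq⟩ := Finset.mem_biUnion.1 hq
    obtain ⟨hp, h1, h2⟩ := mem_savedPrimes hn1 hq
    exact saved_of_mem hj hbig hp h1 h2
  · rw [Finset.prod_biUnion (pairwiseDisjoint_savedPrimes hn1), Nat.cast_prod]
    have hpos : ∀ j ∈ savedIdx, (0 : ℝ) < ((∏ q ∈ savedPrimes n j, q : ℕ) : ℝ) := fun j _ => by
      exact_mod_cast Finset.prod_pos fun q (hq : q ∈ savedPrimes n j) =>
        Nat.Prime.pos (Finset.mem_filter.1 hq).2
    rw [← Real.exp_log (Finset.prod_pos hpos), Real.exp_le_exp,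
      Real.log_prod fun j hj => (hpos j hj).ne']
    have h0 : (0 : ℝ) < n := by exact_mod_cast hn1
    rw [← Finset.sum_div, lt_div_iff₀ h0] at hn
    exact hn.le

end Vale.Agent.P021Pi
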