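import Vale.Agent.P021Pi.RatPrim

/-!
# The rational part is almost `2`-integral (P021)

Substitute `z = (1+i) + (2/s) X` with `s^16 = 2`: all denominators become `1` modulo `s`.
-/

namespace Vale.Agent.P021Pi

open Polynomial Finset

/-- A sixteenth root of two. -/
noncomputable def sr : ℂ := (((2 : ℝ) ^ ((1 : ℝ) / 16) : ℝ) : ℂ)

/-- An eighth root of unity, `(1+i)/√2`. -/
noncomputable def zeta : ℂ := (1 + Complex.I) / sr ^ 8

lemma sr_pow : sr ^ 16 = 2 := by
  rw [sr, ← Complex.ofReal_pow, ← Real.rpow_natCast, ← Real.rpow_mul two_pos.le]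
  norm_num

lemma sr_ne_zero : sr ≠ 0 := fun h => by
  have := sr_pow
  rw [h] at this
  norm_num at this

lemma zeta_eq : zeta * sr ^ 8 = 1 + Complex.I :=
  div_mul_cancel₀ _ (pow_ne_zero 8 sr_ne_zero)

lemma zeta_pow : zeta ^ 8 = 1 := by
  have h : (zeta * sr ^ 8) ^ 8 = 16 := by
    rw [zeta_eq]
    have h2 : (1 + Complex.I) ^ 2 = 2 * Complex.I := by linear_combination Complex.I_sq
    have h4 : (1 + Complex.I) ^ 4 = -4 := by
      rw [show (1 + Complex.I) ^ 4 = ((1 + Complex.I) ^ 2) ^ 2 by ring, h2]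
      linear_combination 4 * Complex.I_sq
    rw [show (1 + Complex.I) ^ 8 = ((1 + Complex.I) ^ 4) ^ 2 by ring, h4]
    norm_num
  rw [mul_pow, ← pow_mul, show 8 * 8 = 16 * 4 by norm_num, pow_mul, sr_pow] at h
  linear_combination h / 16

lemma sr_mem : sr ∈ locInt 2 := by
  refine locInt_of_isIntegral (IsIntegral.of_pow (n := 16) (by norm_num) ?_)
  rw [sr_pow]
  simpa using (isIntegral_algebraMap (R := ℤ) (A := ℂ) (x := 2))

lemma zeta_mem : zeta ∈ locInt 2 := by
  refine locInt_of_isIntegral (IsIntegral.of_pow (n := 8) (by norm_num) ?_)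
  rw [zeta_pow]
  exact isIntegral_one

lemma zeta_ne_zero : zeta ≠ 0 := fun h => by
  have := zeta_pow
  rw [h] at this
  norm_num at this

lemma sixteen_le_two_pow (v : ℕ) : 16 * v ≤ 2 ^ v + 80 := by
  induction v with
  | zero => norm_num
  | succ v ih =>
    rcases le_or_gt v 4 with h | h
    · have := Nat.one_le_two_pow (n := v + 1)
      omega
    · have : 2 ^ 5 ≤ 2 ^ v := Nat.pow_le_pow_right two_pos h
      rw [pow_succ]
      omega

lemma sr_pow_div_mem (m : ℕ) : sr ^ (m + 81) / ((m + 1 : ℕ) : ℂ) ∈ locInt 2 := by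
  obtain ⟨v, o, ho, hm⟩ := Nat.exists_eq_two_pow_mul_odd (n := m + 1) (by omega)
  have hv : 2 ^ v ≤ m + 1 := hm ▸ Nat.le_mul_of_pos_right _ ho.pos
  have h16 : 16 * v ≤ m + 81 := by
    have := sixteen_le_two_pow v
    omega
  have h2 : ((2 : ℂ) ^ v) ≠ 0 := pow_ne_zero _ two_ne_zero
  have e : sr ^ (m + 81) / ((m + 1 : ℕ) : ℂ) = sr ^ (m + 81 - 16 * v) * ((o : ℂ))⁻¹ := by
    rw [hm]
    nth_rewrite 1 [show m + 81 = m + 81 - 16 * v + 16 * v by omega]
    rw [pow_add, pow_mul, sr_pow]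
    push_cast
    field_simp
  rw [e]
  exact (locInt 2).mul_mem (pow_mem sr_mem _)
    (locInt_inv_natCast (Nat.coprime_two_right.mpr ho))

/-- Polynomials with coefficients in `locInt 2`. -/
noncomputable def intPoly : Subring ℂ[X] := (mapRingHom (locInt 2).subtype).range

lemma intPoly_C {c : ℂ} (hc : c ∈ locInt 2) : C c ∈ intPoly := ⟨C ⟨c, hc⟩, by simp⟩

lemma intPoly_X : X ∈ intPoly := ⟨X, by simp⟩

lemma intPoly_derivative {P : ℂ[X]} (h : P ∈ intPoly) : derivative P ∈ intPoly := by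
  obtain ⟨p, rfl⟩ := h
  exact ⟨derivative p, by simp [derivative_map]⟩

lemma intPoly_eval {P : ℂ[X]} (h : P ∈ intPoly) {x : ℂ} (hx : x ∈ locInt 2) :
    P.eval x ∈ locInt 2 := by
  obtain ⟨p, rfl⟩ := h
  rw [coe_mapRingHom, show x = (locInt 2).subtype ⟨x, hx⟩ from rfl, eval_map, eval₂_at_apply]
  exact Subtype.mem _

lemma intPoly_coeff {P : ℂ[X]} (h : P ∈ intPoly) (i : ℕ) : P.coeff i ∈ locInt 2 := by
  obtain ⟨p, rfl⟩ := h
  rw [coe_mapRingHom, coeff_map]
  exact Subtype.mem _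

/-- `P = 1 - s E` with integral `E`. -/
def NearOne (P : ℂ[X]) : Prop := ∃ E ∈ intPoly, P = 1 - C sr * E

lemma nearOne_mul {P Q : ℂ[X]} (hP : NearOne P) (hQ : NearOne Q) : NearOne (P * Q) := by
  obtain ⟨E, hE, rfl⟩ := hP
  obtain ⟨F, hF, rfl⟩ := hQ
  refine ⟨E + F - C sr * (E * F),
    intPoly.sub_mem (intPoly.add_mem hE hF) (intPoly.mul_mem (intPoly_C sr_mem)
      (intPoly.mul_mem hE hF)), by ring⟩

lemma nearOne_pow {P : ℂ[X]} (hP : NearOne P) (n : ℕ) : NearOne (P ^ n) := by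
  induction n with
  | zero => exact ⟨0, intPoly.zero_mem, by simp⟩
  | succ n ih => rw [pow_succ]; exact nearOne_mul ih hP

lemma nearOne_mem {P : ℂ[X]} (hP : NearOne P) : P ∈ intPoly := by
  obtain ⟨E, hE, rfl⟩ := hP
  exact intPoly.sub_mem intPoly.one_mem (intPoly.mul_mem (intPoly_C sr_mem) hE)

/-- The change of variable. -/
noncomputable def zpoly : ℂ[X] := C (1 + Complex.I) + C (sr ^ 15) * X

/-- Normalised `z`. -/
noncomputable def bz : ℂ[X] := 1 + C (sr ^ 7 * zeta ^ 7) * X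

/-- Normalised `z^2 - 2`. -/
noncomputable def bd : ℂ[X] :=
  1 + C (-(Complex.I * sr ^ 15)) * X + C (-(Complex.I * sr ^ 6 * zeta ^ 7)) * X ^ 2

lemma nearOne_bz : NearOne bz := by
  refine ⟨-(C (sr ^ 6 * zeta ^ 7) * X), intPoly.neg_mem (intPoly.mul_mem (intPoly_C
    ((locInt 2).mul_mem (pow_mem sr_mem 6) (pow_mem zeta_mem 7))) intPoly_X), ?_⟩
  rw [bz]
  simp only [map_mul, map_pow]
  ring

lemma nearOne_bd : NearOne bd := by
  refine ⟨C (Complex.I * sr ^ 14) * X + C (Complex.I * sr ^ 5 * zeta ^ 7) * X ^ 2,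
    intPoly.add_mem (intPoly.mul_mem (intPoly_C ((locInt 2).mul_mem (locInt_I 2)
      (pow_mem sr_mem 14))) intPoly_X) (intPoly.mul_mem (intPoly_C ((locInt 2).mul_mem
      ((locInt 2).mul_mem (locInt_I 2) (pow_mem sr_mem 5)) (pow_mem zeta_mem 7)))
      (pow_mem intPoly_X 2)), ?_⟩
  rw [bd]
  simp only [map_mul, map_pow, map_neg]
  ring

lemma zpoly_eval (x : ℂ) : zpoly.eval x = (1 + Complex.I) * bz.eval x := by
  simp only [zpoly, bz, eval_add, eval_mul, eval_C, eval_X, eval_one]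
  linear_combination
    (-(sr ^ 15 * x)) * zeta_pow + (sr ^ 7 * zeta ^ 7 * x) * zeta_eq

lemma zpoly_sq (x : ℂ) : zpoly.eval x ^ 2 - 2 = 2 * (Complex.I - 1) * bd.eval x := by
  simp only [zpoly, bd, eval_add, eval_mul, eval_C, eval_X, eval_one, eval_pow]
  linear_combination (2 * sr ^ 15 * x + 1) * Complex.I_sq
    + (sr ^ 14 * x ^ 2 - 2 * Complex.I * (1 - Complex.I) * sr ^ 6 * zeta ^ 7 * x ^ 2 * 0) * sr_pow
    + (-(sr ^ 14 * x ^ 2 * 2)) * zeta_pow + (2 * sr ^ 6 * zeta ^ 7 * x ^ 2) * zeta_eq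
    + (2 * sr ^ 6 * zeta ^ 7 * x ^ 2) * Complex.I_sq

lemma exists_denominator (A : ℚ[X]) :
    ∃ e : ℕ, C (sr ^ e) * A.map (algebraMap ℚ ℂ) ∈ intPoly := by
  classical
  set N : ℕ := ∏ i ∈ A.support, (A.coeff i).den with hN
  have hN0 : N ≠ 0 := Finset.prod_ne_zero_iff.mpr fun i _ => (A.coeff i).den_nz
  obtain ⟨v, o, ho, hNvo⟩ := Nat.exists_eq_two_pow_mul_odd hN0
  refine ⟨16 * v, ?_⟩
  rw [A.as_sum_support_C_mul_X_pow, Polynomial.map_sum, Finset.mul_sum]
  refine sum_mem fun i hi => ?_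
  rw [Polynomial.map_mul, map_C, Polynomial.map_pow, map_X, ← mul_assoc, ← map_mul]
  refine intPoly.mul_mem (intPoly_C ?_) (pow_mem intPoly_X _)
  obtain ⟨d, hd⟩ : (A.coeff i).den ∣ N := Finset.dvd_prod_of_mem _ hi
  have e1 : sr ^ (16 * v) * algebraMap ℚ ℂ (A.coeff i)
      = ((((A.coeff i).num * (d : ℤ)) : ℤ) : ℂ) * ((o : ℂ))⁻¹ := by
    have ho0 : (o : ℂ) ≠ 0 := Nat.cast_ne_zero.mpr ho.pos.ne'
    have hd0 : (((A.coeff i).den : ℕ) : ℂ) ≠ 0 := Nat.cast_ne_zero.mpr (A.coeff i).den_nz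
    have h := congrArg (fun n : ℕ => (n : ℂ)) (hNvo.symm.trans hd)
    push_cast at h
    rw [pow_mul, sr_pow, eq_ratCast, Rat.cast_def]
    push_cast
    field_simp
    linear_combination ((A.coeff i).num : ℂ) * h
  rw [e1]
  exact (locInt 2).mul_mem (intCast_mem _ _) (locInt_inv_natCast (Nat.coprime_two_right.mpr ho))

lemma geom_id (E : ℂ[X]) (M : ℕ) :
    (∑ j ∈ range M, (C sr * E) ^ j) * (1 - C sr * E) + C (sr ^ M) * E ^ M = 1 := by
  rw [geom_sum_mul_neg, map_pow, ← mul_pow]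
  ring

lemma integral_of_near {Q B : ℂ[X]} (hB : NearOne B) (e : ℕ) (hQ : C (sr ^ e) * Q ∈ intPoly)
    (h : Q * B ∈ intPoly) : Q ∈ intPoly := by
  obtain ⟨E, hE, hBE⟩ := hB
  rw [hBE] at h
  have hdec : Q = (∑ j ∈ range e, (C sr * E) ^ j) * (Q * (1 - C sr * E))
      + C (sr ^ e) * Q * E ^ e := by
    linear_combination (-Q) * geom_id E e
  rw [hdec]
  exact intPoly.add_mem (intPoly.mul_mem
    (sum_mem fun j _ => pow_mem (intPoly.mul_mem (intPoly_C sr_mem) hE) j) h)
    (intPoly.mul_mem hQ (pow_mem hE e))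

lemma increment_mem (P : ℂ[X]) (h : derivative P ∈ intPoly) :
    2 ^ 5 * (P.eval (-(Complex.I * sr)) - P.eval 0) ∈ locInt 2 := by
  rw [eval_eq_sum_range, ← coeff_zero_eq_eval_zero, Finset.sum_range_succ']
  rw [pow_zero, mul_one, add_sub_cancel_right, Finset.mul_sum]
  refine sum_mem fun m _ => ?_
  have hc : P.coeff (m + 1) * ((m + 1 : ℕ) : ℂ) ∈ locInt 2 := by
    have := intPoly_coeff h m
    rw [coeff_derivative] at this
    push_cast
    exact this
  have hm : ((m + 1 : ℕ) : ℂ) ≠ 0 := Nat.cast_ne_zero.mpr (by omega)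
  rw [show (2 : ℂ) ^ 5 * (P.coeff (m + 1) * (-(Complex.I * sr)) ^ (m + 1))
      = (P.coeff (m + 1) * ((m + 1 : ℕ) : ℂ)) * (-Complex.I) ^ (m + 1)
          * (sr ^ (m + 81) / ((m + 1 : ℕ) : ℂ)) by
    rw [show m + 81 = (m + 1) + 16 * 5 by omega, pow_add sr, pow_mul, sr_pow, ← neg_mul,
      mul_pow (-Complex.I) sr]
    field_simp]
  exact (locInt 2).mul_mem ((locInt 2).mul_mem hc (pow_mem ((locInt 2).neg_mem (locInt_I 2)) _))
    (sr_pow_div_mem m)

/-- The normalised integrand constant. -/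
noncomputable def kappa (A H : ℕ) : ℂ :=
  sr ^ (7 + 22 * A - 16 * H) * zeta ^ (7 * (2 * H + 1)) * (-Complex.I) ^ H

/-- The normalised numerator. -/
noncomputable def numer (A B H : ℕ) (ρ : ℤ) : ℂ[X] :=
  C (kappa A H) * ((X ^ 2 + C (Complex.I * sr) * X) ^ A
      * ((C Complex.I + C (sr ^ 15) * X) * (C (Complex.I * zeta) + C (sr ^ 7) * X)) ^ B)
    - C ((ρ : ℂ) * (sr ^ 7 * zeta ^ 7)) * (bz ^ H * bd ^ H)

lemma numer_mem (A B H : ℕ) (ρ : ℤ) : numer A B H ρ ∈ intPoly := by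
  have hs := sr_mem
  have hz := zeta_mem
  have hI := locInt_I 2
  refine intPoly.sub_mem (intPoly.mul_mem (intPoly_C ?_) (intPoly.mul_mem (pow_mem ?_ _)
    (pow_mem ?_ _))) (intPoly.mul_mem (intPoly_C ?_) (intPoly.mul_mem
      (pow_mem (nearOne_mem nearOne_bz) _) (pow_mem (nearOne_mem nearOne_bd) _)))
  · exact (locInt 2).mul_mem ((locInt 2).mul_mem (pow_mem hs _) (pow_mem hz _))
      (pow_mem ((locInt 2).neg_mem hI) _)
  · exact intPoly.add_mem (pow_mem intPoly_X 2)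
      (intPoly.mul_mem (intPoly_C ((locInt 2).mul_mem hI hs)) intPoly_X)
  · exact intPoly.mul_mem
      (intPoly.add_mem (intPoly_C hI) (intPoly.mul_mem (intPoly_C (pow_mem hs 15)) intPoly_X))
      (intPoly.add_mem (intPoly_C ((locInt 2).mul_mem hI hz))
        (intPoly.mul_mem (intPoly_C (pow_mem hs 7)) intPoly_X))
  · exact (locInt 2).mul_mem (intCast_mem _ _) ((locInt 2).mul_mem (pow_mem hs 7) (pow_mem hz 7))

lemma transformed (A B H : ℕ) (hAB : A + B = 2 * H) (h811 : 8 * H ≤ 11 * A) (ρ : ℤ) (x : ℂ)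
    (hx : zpoly.eval x ∈ dom) :
    (integrand A B H (zpoly.eval x) - ρ / zpoly.eval x) * sr ^ 15
      = (numer A B H ρ).eval x / (bz.eval x ^ (H + 1) * bd.eval x ^ H) := by
  have hs0 := sr_ne_zero
  have hz0 := zeta_ne_zero
  have hI : Complex.I ≠ 0 := Complex.I_ne_zero
  have h2 : (2 : ℂ) = sr ^ 16 := sr_pow.symm
  have hzx : zpoly.eval x = zeta * sr ^ 8 * bz.eval x := by rw [zeta_eq]; exact zpoly_eval x
  have hIz : Complex.I - 1 = Complex.I * zeta * sr ^ 8 := by
    rw [mul_assoc, zeta_eq]; linear_combination (-1 : ℂ) * Complex.I_sq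
  have hdx : zpoly.eval x ^ 2 - 2 = sr ^ 24 * (Complex.I * zeta) * bd.eval x := by
    rw [zpoly_sq, hIz, h2]; ring
  have e1 : zpoly.eval x ^ 2 - 2 * zpoly.eval x + 2
      = sr ^ 30 * (x ^ 2 + Complex.I * sr * x) := by
    simp only [zpoly, eval_add, eval_mul, eval_C, eval_X]
    linear_combination Complex.I_sq - (Complex.I * sr ^ 15 * x) * sr_pow
  have e2 : zpoly.eval x - 1 = Complex.I + sr ^ 15 * x := by
    simp only [zpoly, eval_add, eval_mul, eval_C, eval_X]; ring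
  have e3 : zpoly.eval x - 2 = sr ^ 8 * (Complex.I * zeta + sr ^ 7 * x) := by
    simp only [zpoly, eval_add, eval_mul, eval_C, eval_X]
    linear_combination hIz
  have hbz : bz.eval x ≠ 0 := fun h => hx.1 (by rw [hzx, h, mul_zero])
  have hbd : bd.eval x ≠ 0 := fun h => hx.2 (by rw [hdx, h, mul_zero])
  rw [integrand, e1, e2, e3, hdx, hzx]
  simp only [numer, kappa, eval_sub, eval_mul, eval_C, eval_pow, eval_add, eval_X]
  generalize hP : bz.eval x = p at hbz ⊢
  generalize hQ : bd.eval x = r at hbd ⊢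
  generalize x ^ 2 + Complex.I * sr * x = a
  generalize Complex.I + sr ^ 15 * x = b
  generalize Complex.I * zeta + sr ^ 7 * x = c
  have hze : zeta ^ (7 * (2 * H + 1)) * zeta ^ (2 * H + 1) = 1 := by
    rw [← pow_add, show 7 * (2 * H + 1) + (2 * H + 1) = 8 * (2 * H + 1) by ring, pow_mul,
      zeta_pow, one_pow]
  have hIe : (-Complex.I) ^ H * Complex.I ^ H = 1 := by
    rw [← mul_pow, neg_mul, Complex.I_mul_I, neg_neg, one_pow]
  have hz7 : zeta ^ 7 = zeta⁻¹ := eq_inv_of_mul_eq_one_left (by rw [← pow_succ, zeta_pow])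
  have hexp : sr ^ (30 * A + 8 * B) * sr ^ 15
      = sr ^ (7 + 22 * A - 16 * H) * (sr ^ 8) ^ (H + 1) * (sr ^ 24) ^ H := by
    rw [← pow_mul, ← pow_mul, ← pow_add, ← pow_add, ← pow_add]
    congr 1
    omega
  have hze' : zeta ^ (7 * (2 * H + 1)) * (zeta ^ (H + 1) * zeta ^ H) = 1 := by
    rw [← pow_add, show H + 1 + H = 2 * H + 1 by omega]; exact hze
  have hexp' : (sr ^ 30) ^ A * (sr ^ 8) ^ B * sr ^ 15
      = sr ^ (7 + 22 * A - 16 * H) * (sr ^ 8) ^ (H + 1) * (sr ^ 24) ^ H := by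
    rw [← hexp, pow_add, pow_mul, pow_mul]
  rw [sub_mul, sub_div]
  congr 1
  · rw [div_mul_eq_mul_div, div_eq_div_iff (by simp [hs0, hz0, hbz, hbd])
      (by simp [hbz, hbd])]
    simp only [mul_pow]
    linear_combination (a ^ A * b ^ B * c ^ B * p ^ (H + 1) * r ^ H) * hexp'
      - (a ^ A * b ^ B * c ^ B * p ^ (H + 1) * r ^ H * (sr ^ (7 + 22 * A - 16 * H)
          * (sr ^ 8) ^ (H + 1) * (sr ^ 24) ^ H) * ((-Complex.I) ^ H * Complex.I ^ H)) * hze'
      - (a ^ A * b ^ B * c ^ B * p ^ (H + 1) * r ^ H * (sr ^ (7 + 22 * A - 16 * H)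
          * (sr ^ 8) ^ (H + 1) * (sr ^ 24) ^ H)) * hIe
  · rw [hz7]
    field_simp
    ring

/-- The two-adic statement. -/
theorem twoAdicStatement : TwoAdicStatement := by
  intro A B H hAB h811 ρ G hG hGd
  obtain ⟨u, v, P₀, hP₀⟩ := hG
  have hs0 := sr_ne_zero
  have hz0 := zeta_ne_zero
  set z0 : ℂ := 1 + Complex.I with hz0def
  set D0 : ℂ := 2 * (Complex.I - 1) with hD0
  have hK : z0 ^ u * D0 ^ v = sr ^ (8 * u + 24 * v) * (zeta ^ (u + v) * Complex.I ^ v) := by
    have e : D0 = sr ^ 24 * (Complex.I * zeta) := by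
      rw [hD0, show sr ^ 24 = sr ^ 16 * sr ^ 8 by ring, sr_pow,
        show (2 : ℂ) * sr ^ 8 * (Complex.I * zeta) = 2 * Complex.I * (zeta * sr ^ 8) by ring,
        zeta_eq]
      linear_combination (-2 : ℂ) * Complex.I_sq
    rw [e, hz0def, ← zeta_eq, mul_pow, mul_pow, mul_pow, ← pow_mul, ← pow_mul, pow_add, pow_add]
    ring
  have hKne : z0 ^ u * D0 ^ v ≠ 0 := by
    rw [hK]; simp [hs0, hz0, Complex.I_ne_zero]
  set At : ℂ[X] := C (z0 ^ u * D0 ^ v)⁻¹ * ((P₀.map (algebraMap ℚ ℂ)).comp zpoly) with hAt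
  obtain ⟨e₀, he₀⟩ := exists_denominator P₀
  set e := e₀ + (8 * u + 24 * v) with he
  have hzpoly : zpoly ∈ intPoly := intPoly.add_mem
    (intPoly_C ((locInt 2).add_mem (locInt 2).one_mem (locInt_I 2)))
    (intPoly.mul_mem (intPoly_C (pow_mem sr_mem 15)) intPoly_X)
  have hAte : C (sr ^ e) * At ∈ intPoly := by
    have h1 : C (sr ^ e₀) * (P₀.map (algebraMap ℚ ℂ)).comp zpoly ∈ intPoly := by
      obtain ⟨q, hq⟩ := he₀
      obtain ⟨w, hw⟩ := hzpoly
      refine ⟨q.comp w, ?_⟩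
      rw [coe_mapRingHom, Polynomial.map_comp]
      rw [coe_mapRingHom] at hq hw
      rw [hq, hw, mul_comp, C_comp]
    have hu : sr ^ (8 * u + 24 * v) * (z0 ^ u * D0 ^ v)⁻¹ ∈ locInt 2 := by
      have h7 : zeta⁻¹ = zeta ^ 7 :=
        inv_eq_of_mul_eq_one_right (by rw [← pow_succ', zeta_pow])
      rw [hK, mul_inv, ← mul_assoc, mul_inv_cancel₀ (pow_ne_zero _ hs0), one_mul, mul_inv,
        ← inv_pow, ← inv_pow, h7, Complex.inv_I]
      exact (locInt 2).mul_mem (pow_mem (pow_mem zeta_mem 7) _)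
        (pow_mem ((locInt 2).neg_mem (locInt_I 2)) _)
    rw [hAt, show C (sr ^ e) * (C (z0 ^ u * D0 ^ v)⁻¹ * (P₀.map (algebraMap ℚ ℂ)).comp zpoly)
      = C (sr ^ (8 * u + 24 * v) * (z0 ^ u * D0 ^ v)⁻¹)
        * (C (sr ^ e₀) * (P₀.map (algebraMap ℚ ℂ)).comp zpoly) by
      rw [he, pow_add, map_mul, map_mul]; ring]
    exact intPoly.mul_mem (intPoly_C hu) h1
  set Bt : ℂ[X] := bz ^ u * bd ^ v with hBt
  set Bf : ℂ[X] := bz ^ (H + 1) * bd ^ H with hBf
  have hnBt : NearOne Bt := nearOne_mul (nearOne_pow nearOne_bz u) (nearOne_pow nearOne_bd v)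
  have hnBf : NearOne Bf :=
    nearOne_mul (nearOne_pow nearOne_bz (H + 1)) (nearOne_pow nearOne_bd H)
  have hgval : ∀ x : ℂ, zpoly.eval x ∈ dom → G (zpoly.eval x) = At.eval x / Bt.eval x := by
    intro x hx
    rw [hP₀ _ hx, zpoly_sq, zpoly_eval]
    simp only [hAt, hBt, hz0def, hD0, eval_mul, eval_C, eval_pow, eval_comp, zpoly_eval, mul_pow,
      eval_map]
    rw [← aeval_def]
    field_simp
  have hBne : ∀ x : ℂ, zpoly.eval x ∈ dom → bz.eval x ≠ 0 ∧ bd.eval x ≠ 0 := fun x hx =>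
    ⟨fun h => hx.1 (by rw [zpoly_eval, h, mul_zero]),
      fun h => hx.2 (by rw [zpoly_sq, h, mul_zero])⟩
  have hident : (derivative At * Bt - At * derivative Bt) * Bf
      = numer A B H ρ * Bt ^ 2 := by
    refine eq_of_infinite_eval_eq _ _ (Set.Infinite.mono ?_
      (Set.Finite.infinite_compl (s := {x : ℂ | zpoly.eval x ∉ dom}) ?_))
    · intro x hx
      have hxd : zpoly.eval x ∈ dom := not_not.mp hx
      obtain ⟨hb1, hb2⟩ := hBne x hxd
      have hBtx : Bt.eval x ≠ 0 := by simp [hBt, hb1, hb2]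
      have hopen : IsOpen dom :=
        (isOpen_ne_fun continuous_id continuous_const).inter
          (isOpen_ne_fun ((continuous_id.pow 2).sub continuous_const) continuous_const)
      have hd1 : HasDerivAt (fun y => G (zpoly.eval y))
          ((numer A B H ρ).eval x / (bz.eval x ^ (H + 1) * bd.eval x ^ H)) x := by
        refine ((hGd _ hxd).comp x (zpoly.hasDerivAt x)).congr_deriv ?_
        rw [← transformed A B H hAB h811 ρ x hxd]
        congr 1
        simp only [zpoly, derivative_add, derivative_C, zero_add, derivative_C_mul, derivative_X,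
          mul_one, eval_C]
      have hd2 : HasDerivAt (fun y => G (zpoly.eval y))
          (((derivative At).eval x * Bt.eval x - At.eval x * (derivative Bt).eval x)
            / Bt.eval x ^ 2) x := by
        refine ((At.hasDerivAt x).fun_div (Bt.hasDerivAt x) hBtx).congr_of_eventuallyEq ?_
        filter_upwards [(hopen.preimage zpoly.continuous).mem_nhds hxd] with y hy
        exact hgval y hy
      have huq := hd1.unique hd2
      simp only [Set.mem_ofPred_eq, eval_mul, eval_sub, eval_pow, hBf]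
      field_simp at huq
      linear_combination -huq
    · have hzd : zpoly.natDegree = 1 := by
        rw [zpoly, add_comm]; exact natDegree_linear (pow_ne_zero _ hs0)
      refine Set.Finite.subset (Polynomial.finite_setOfPred_isRoot
        (p := zpoly * (zpoly ^ 2 - C 2)) ?_) ?_
      · refine mul_ne_zero (fun h => by simp [h] at hzd) (fun h => ?_)
        have h1 : (zpoly ^ 2).natDegree = 2 := by rw [natDegree_pow, hzd]
        rw [sub_eq_zero.mp h, natDegree_C] at h1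
        norm_num at h1
      · intro x hx
        simp only [Set.mem_ofPred_eq, IsRoot, eval_mul, eval_sub, eval_pow, eval_C, mul_eq_zero]
        by_contra hcon
        push Not at hcon
        exact hx hcon
  obtain ⟨E, hE, hBE⟩ := hnBt
  set P : ℂ[X] := At * ∑ j ∈ range e, (C sr * E) ^ j with hP
  set ε : ℂ[X] := C (sr ^ e) * At * E ^ e with hε
  have hεm : ε ∈ intPoly := intPoly.mul_mem hAte (pow_mem hE e)
  have hAPε : At = P * Bt + ε := by
    rw [hP, hε, hBE]
    linear_combination (-At) * geom_id E e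
  have hBtm : Bt ∈ intPoly := nearOne_mem ⟨E, hE, hBE⟩
  have hsPe : C (sr ^ e) * P ∈ intPoly := by
    rw [hP, ← mul_assoc]
    exact intPoly.mul_mem hAte
      (sum_mem fun j _ => pow_mem (intPoly.mul_mem (intPoly_C sr_mem) hE) j)
  have hP' : derivative P ∈ intPoly := by
    refine integral_of_near (nearOne_mul (nearOne_pow ⟨E, hE, hBE⟩ 2) hnBf) e ?_ ?_
    · have := intPoly_derivative hsPe
      rwa [derivative_C_mul] at this
    · have key : ∀ p b a e' : ℂ[X], a = p * b + e' → derivative p * (b ^ 2 * Bf)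
          = (derivative a * b - a * derivative b) * Bf
            - (derivative e' * b - e' * derivative b) * Bf := by
        rintro p b a e' rfl
        rw [derivative_add, derivative_mul]
        ring
      have e1 : derivative P * (Bt ^ 2 * Bf) = numer A B H ρ * Bt ^ 2
          - (derivative ε * Bt - ε * derivative Bt) * Bf := by
        rw [key P Bt At ε hAPε, hident]
      rw [e1]
      exact intPoly.sub_mem (intPoly.mul_mem (numer_mem A B H ρ) (pow_mem hBtm 2))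
        (intPoly.mul_mem (intPoly.sub_mem (intPoly.mul_mem (intPoly_derivative hεm) hBtm)
          (intPoly.mul_mem hεm (intPoly_derivative hBtm))) (nearOne_mem hnBf))
  set x1 : ℂ := -(Complex.I * sr) with hx1
  have hz1 : zpoly.eval x1 = 1 - Complex.I := by
    simp only [hx1, zpoly, eval_add, eval_mul, eval_C, eval_X]
    linear_combination (-Complex.I) * sr_pow
  have hz0' : zpoly.eval 0 = 1 + Complex.I := by simp [zpoly]
  have hbz1 : bz.eval x1 = -Complex.I := by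
    have h := zpoly_eval x1
    rw [hz1] at h
    have hne : (1 : ℂ) + Complex.I ≠ 0 := by simp [Complex.ext_iff]
    apply mul_left_cancel₀ hne
    linear_combination -h + Complex.I_sq
  have hbd1 : bd.eval x1 = Complex.I := by
    have h := zpoly_sq x1
    rw [hz1] at h
    have hne : 2 * (Complex.I - 1) ≠ (0 : ℂ) := by simp [Complex.ext_iff]
    apply mul_left_cancel₀ hne
    linear_combination -h - Complex.I_sq
  have hg1 : G (1 - Complex.I) = P.eval x1 + ε.eval x1 * (Complex.I ^ u * (-Complex.I) ^ v) := by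
    rw [← hz1, hgval x1 (hz1 ▸ dom_of_im (by simp))]
    have hB : Bt.eval x1 = (-Complex.I) ^ u * Complex.I ^ v := by
      simp [hBt, hbz1, hbd1]
    have hII : (-Complex.I) ^ u * Complex.I ^ v * (Complex.I ^ u * (-Complex.I) ^ v) = 1 := by
      calc _ = ((-Complex.I) * Complex.I) ^ u * (Complex.I * -Complex.I) ^ v := by
            rw [mul_pow, mul_pow]; ring
        _ = 1 := by simp
    have hBne : Bt.eval x1 ≠ 0 := by rw [hB]; exact left_ne_zero_of_mul_eq_one hII
    rw [div_eq_iff hBne, congrArg (eval x1) hAPε, eval_add, eval_mul, hB]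
    linear_combination (-(ε.eval x1)) * hII
  have hg0 : G (1 + Complex.I) = P.eval 0 + ε.eval 0 := by
    rw [← hz0', hgval 0 (hz0' ▸ dom_of_im (by simp))]
    have hB : Bt.eval 0 = 1 := by simp [hBt, bz, bd]
    rw [hB, div_one, congrArg (eval 0) hAPε, eval_add, eval_mul, hB, mul_one]
  rw [hg1, hg0, show (2 : ℂ) ^ 5 * (P.eval x1 + ε.eval x1 * (Complex.I ^ u * (-Complex.I) ^ v)
      - (P.eval 0 + ε.eval 0)) = 2 ^ 5 * (P.eval x1 - P.eval 0)
      + 2 ^ 5 * (ε.eval x1 * (Complex.I ^ u * (-Complex.I) ^ v) - ε.eval 0) by ring]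
  refine (locInt 2).add_mem (increment_mem P hP') ((locInt 2).mul_mem
    (pow_mem (natCast_mem _ 2) 5) ((locInt 2).sub_mem ((locInt 2).mul_mem
      (intPoly_eval hεm ((locInt 2).neg_mem ((locInt 2).mul_mem (locInt_I 2) sr_mem))) ?_)
      (intPoly_eval hεm (locInt 2).zero_mem)))
  exact (locInt 2).mul_mem (pow_mem (locInt_I 2) _) (pow_mem ((locInt 2).neg_mem (locInt_I 2)) _)

end Vale.Agent.P021Pi
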